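import Vale.Agent.P177.B8.Dev

/-!
P177, block B8, part 3: syzygies, and comparison of tensor products over different rings.
-/

namespace Vale.Agent.P177.B8

open Vale.Agent.P202.Mix Vale.Agent.P177.Mass TensorProduct
open scoped ENNReal

universe u

section Syz

variable {R : Type u} [CommRing R]

/-- Tor in terms of syzygies. -/
theorem tor_syz (K F : ℕ → Type u) [∀ i, AddCommGroup (K i)] [∀ i, Module R (K i)]
    [∀ i, AddCommGroup (F i)] [∀ i, Module R (F i)] [∀ i, Module.Flat R (F i)]
    (f : ∀ i, K (i + 1) →ₗ[R] F i) (g : ∀ i, F i →ₗ[R] K i) (hf : ∀ i, Function.Injective (f i))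
    (hg : ∀ i, Function.Surjective (g i)) (h : ∀ i, Function.Exact (f i) (g i)) (N : Type u)
    [AddCommGroup N] [Module R N] (i : ℕ) :
    Nonempty (TorM R (i + 1) (K 0) N ≃ₗ[R] LinearMap.ker ((f i).rTensor N)) := by
  have aux : ∀ i j, Nonempty (TorM R (j + 1 + i) (K 0) N ≃ₗ[R] TorM R (j + 1) (K i) N) := by
    intro i
    induction i with
    | zero => intro j; exact ⟨LinearEquiv.refl R _⟩
    | succ i ih =>
      intro j
      obtain ⟨e1⟩ := ih (j + 1)
      obtain ⟨e2⟩ := tor_shift (f i) (g i) (hf i) (hg i) (h i) N j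
      have : j + 1 + (i + 1) = j + 1 + 1 + i := by omega
      rw [this]
      exact ⟨e1 ≪≫ₗ e2⟩
  have e1' : Nonempty (TorM R (i + 1) (K 0) N ≃ₗ[R] TorM R 1 (K i) N) := by
    have := aux i 0
    rwa [show 0 + 1 + i = i + 1 by omega] at this
  obtain ⟨e1⟩ := e1'
  obtain ⟨e2⟩ := tor_one (f i) (g i) (hf i) (hg i) (h i) N
  exact ⟨e1 ≪≫ₗ e2⟩

/-- the covering map of a module by the free module on its elements. -/
noncomputable def cov (M : Type u) [AddCommGroup M] [Module R M] : (M →₀ R) →ₗ[R] M :=
  Finsupp.linearCombination R id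

/-- the syzygies of a module, for the free covers on all the elements. -/
noncomputable def syz (A : ModuleCat.{u} R) : ℕ → ModuleCat.{u} R
  | 0 => A
  | n + 1 => ModuleCat.of R (LinearMap.ker (cov (R := R) (syz A n)))

/-- the free covers. -/
abbrev Fs (A : ModuleCat.{u} R) (n : ℕ) : Type u := (syz A n) →₀ R

/-- the covering map. -/
noncomputable def gs (A : ModuleCat.{u} R) (n : ℕ) : Fs A n →ₗ[R] syz A n :=
  cov (syz A n)

/-- the inclusion of the syzygies. -/
noncomputable def fs (A : ModuleCat.{u} R) (n : ℕ) : syz A (n + 1) →ₗ[R] Fs A n :=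
  (LinearMap.ker (cov (R := R) (syz A n))).subtype

theorem fs_injective (A : ModuleCat.{u} R) (n : ℕ) : Function.Injective (fs A n) :=
  Submodule.injective_subtype (LinearMap.ker (cov (R := R) (syz A n)))

theorem gs_surjective (A : ModuleCat.{u} R) (n : ℕ) : Function.Surjective (gs A n) := fun m =>
  ⟨Finsupp.single m 1, by simp [gs, cov]⟩

theorem fs_exact (A : ModuleCat.{u} R) (n : ℕ) : Function.Exact (fs A n) (gs A n) := by
  intro x
  constructor
  · intro hx
    exact ⟨(⟨x, hx⟩ : LinearMap.ker (cov (R := R) (syz A n))), rfl⟩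
  · rintro ⟨y, rfl⟩
    exact (show LinearMap.ker (cov (R := R) (syz A n)) from y).2

end Syz

section Cmp

variable {Λ R E D : Type u} [CommRing Λ] [CommRing R] [CommRing E] [CommRing D]
  [Algebra Λ R] [Algebra Λ E] [Algebra R D] [Algebra E D]
  (P : Type u) [AddCommGroup P] [Module R P] [Module Λ P] [IsScalarTower Λ R P]
  (Y : Type u) [AddCommGroup Y] [Module E Y] [Module Λ Y] [IsScalarTower Λ E Y]
  (X : Type u) [AddCommGroup X] [Module D X] [Module R X] [IsScalarTower R D X]
  [Module E X] [IsScalarTower E D X]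
  (K : Type u) [AddCommGroup K] [Module R K]

/-- `X = Y ⊗[Λ] P` with `E` acting through `Y` and `R` acting through `P`. -/
structure TData where
  /-- the identification -/
  e : Y ⊗[Λ] P ≃+ X
  hE : ∀ (a : E) (y : Y) (l : P), e ((a • y) ⊗ₜ l) = a • e (y ⊗ₜ l)
  hR : ∀ (r : R) (y : Y) (l : P), e (y ⊗ₜ (r • l)) = r • e (y ⊗ₜ l)

variable {P Y X}

/-- the `R`-linear map `l ↦ y ⊗ l`. -/
def TData.phi (T : TData (Λ := Λ) (R := R) (E := E) P Y X) (y : Y) : P →ₗ[R] X where
  toFun l := T.e (y ⊗ₜ l)
  map_add' a b := by rw [TensorProduct.tmul_add, map_add]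
  map_smul' r a := by rw [T.hR, RingHom.id_apply]

theorem TData.phi_apply (T : TData (Λ := Λ) (R := R) (E := E) P Y X) (y : Y) (l : P) :
    T.phi y l = T.e (y ⊗ₜ l) := rfl

/-- `y ⊗ (l ⊗ k) ↦ (y ⊗ l) ⊗ k`. -/
noncomputable def TData.bet (T : TData (Λ := Λ) (R := R) (E := E) P Y X) :
    Y ⊗[Λ] (P ⊗[R] K) →+ X ⊗[R] K :=
  TensorProduct.liftAddHom
    { toFun := fun y => (LinearMap.rTensor K (T.phi y)).toAddMonoidHom
      map_zero' := by
        ext z
        change (LinearMap.rTensor K (T.phi 0)) z = 0
        have : T.phi 0 = 0 := by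
          ext l
          rw [TData.phi_apply, TensorProduct.zero_tmul, map_zero, LinearMap.zero_apply]
        rw [this, LinearMap.rTensor_zero, LinearMap.zero_apply]
      map_add' := fun y y' => by
        ext z
        change (LinearMap.rTensor K (T.phi (y + y'))) z =
          (LinearMap.rTensor K (T.phi y)) z + (LinearMap.rTensor K (T.phi y')) z
        have : T.phi (y + y') = T.phi y + T.phi y' := by
          ext l
          rw [LinearMap.add_apply, TData.phi_apply, TensorProduct.add_tmul, map_add]
          rfl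
        rw [this, LinearMap.rTensor_add, LinearMap.add_apply] }
    (by
      intro r y z
      change (LinearMap.rTensor K (T.phi (r • y))) z = (LinearMap.rTensor K (T.phi y)) (r • z)
      induction z using TensorProduct.induction_on with
      | zero => rw [smul_zero, map_zero, map_zero]
      | tmul l k =>
        rw [TensorProduct.smul_tmul', LinearMap.rTensor_tmul, LinearMap.rTensor_tmul,
          TData.phi_apply, TData.phi_apply, TensorProduct.smul_tmul]
      | add a b ha hb => rw [smul_add, map_add, map_add, ha, hb])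

theorem TData.bet_tmul (T : TData (Λ := Λ) (R := R) (E := E) P Y X) (y : Y) (l : P) (k : K) :
    T.bet K (y ⊗ₜ (l ⊗ₜ k)) = T.e (y ⊗ₜ l) ⊗ₜ k := rfl

/-- the `Λ`-linear map `l ↦ l ⊗ k`. -/
noncomputable def mkk (k : K) : P →ₗ[Λ] P ⊗[R] K where
  toFun l := l ⊗ₜ k
  map_add' a b := TensorProduct.add_tmul a b k
  map_smul' r a := by rw [RingHom.id_apply, TensorProduct.smul_tmul']

theorem mkk_apply (k : K) (l : P) : mkk (Λ := Λ) (R := R) K k l = l ⊗ₜ k := rfl

/-- The map sending (y ⊗ l) ⊗ k to y ⊗ (l ⊗ k). -/
noncomputable def TData.alp (T : TData (Λ := Λ) (R := R) (E := E) P Y X) :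
    X ⊗[R] K →+ Y ⊗[Λ] (P ⊗[R] K) :=
  TensorProduct.liftAddHom
    { toFun := fun x =>
        { toFun := fun k => (mkk (Λ := Λ) (R := R) (P := P) K k).lTensor Y (T.e.symm x)
          map_zero' := by
            have : mkk (Λ := Λ) (R := R) (P := P) K 0 = 0 := by
              ext l
              rw [mkk_apply, TensorProduct.tmul_zero, LinearMap.zero_apply]
            rw [this, LinearMap.lTensor_zero, LinearMap.zero_apply]
          map_add' := fun k k' => by
            have : mkk (Λ := Λ) (R := R) (P := P) K (k + k') = mkk K k + mkk K k' := by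
              ext l
              rw [LinearMap.add_apply, mkk_apply, mkk_apply, mkk_apply, TensorProduct.tmul_add]
            rw [this, LinearMap.lTensor_add, LinearMap.add_apply] }
      map_zero' := by
        ext k
        change (mkk (Λ := Λ) (R := R) (P := P) K k).lTensor Y (T.e.symm 0) = 0
        rw [map_zero, map_zero]
      map_add' := fun x x' => by
        ext k
        change (mkk (Λ := Λ) (R := R) (P := P) K k).lTensor Y (T.e.symm (x + x')) =
          (mkk (Λ := Λ) (R := R) (P := P) K k).lTensor Y (T.e.symm x) +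
          (mkk (Λ := Λ) (R := R) (P := P) K k).lTensor Y (T.e.symm x')
        rw [map_add, map_add] }
    (by
      intro r x k
      change (mkk (Λ := Λ) (R := R) (P := P) K k).lTensor Y (T.e.symm (r • x)) =
        (mkk (Λ := Λ) (R := R) (P := P) K (r • k)).lTensor Y (T.e.symm x)
      obtain ⟨t, rfl⟩ := T.e.surjective x
      rw [AddEquiv.symm_apply_apply]
      induction t using TensorProduct.induction_on with
      | zero => rw [map_zero, smul_zero, map_zero, map_zero, map_zero]
      | tmul y l =>
        rw [← T.hR, AddEquiv.symm_apply_apply, LinearMap.lTensor_tmul, LinearMap.lTensor_tmul,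
          mkk_apply, mkk_apply, TensorProduct.smul_tmul]
      | add a b ha hb => rw [map_add, smul_add, map_add, map_add, map_add, ha, hb])

theorem TData.alp_tmul (T : TData (Λ := Λ) (R := R) (E := E) P Y X) (x : X) (k : K) :
    T.alp K (x ⊗ₜ k) = (mkk (Λ := Λ) (R := R) (P := P) K k).lTensor Y (T.e.symm x) := rfl

theorem TData.alp_bet (T : TData (Λ := Λ) (R := R) (E := E) P Y X) (t : Y ⊗[Λ] (P ⊗[R] K)) :
    T.alp K (T.bet K t) = t := by
  induction t using TensorProduct.induction_on with
  | zero => rw [map_zero, map_zero]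
  | tmul y z =>
    induction z using TensorProduct.induction_on with
    | zero => rw [TensorProduct.tmul_zero, map_zero, map_zero]
    | tmul l k =>
      rw [TData.bet_tmul, TData.alp_tmul, AddEquiv.symm_apply_apply, LinearMap.lTensor_tmul,
        mkk_apply]
    | add a b ha hb => rw [TensorProduct.tmul_add, map_add, map_add, ha, hb]
  | add a b ha hb => rw [map_add, map_add, ha, hb]

theorem TData.bet_alp (T : TData (Λ := Λ) (R := R) (E := E) P Y X) (t : X ⊗[R] K) :
    T.bet K (T.alp K t) = t := by
  induction t using TensorProduct.induction_on with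
  | zero => rw [map_zero, map_zero]
  | tmul x k =>
    rw [TData.alp_tmul]
    obtain ⟨s, rfl⟩ := T.e.surjective x
    rw [AddEquiv.symm_apply_apply]
    induction s using TensorProduct.induction_on with
    | zero => rw [map_zero, map_zero, map_zero, TensorProduct.zero_tmul]
    | tmul y l => rw [LinearMap.lTensor_tmul, mkk_apply, TData.bet_tmul]
    | add a b ha hb => rw [map_add, map_add, map_add, TensorProduct.add_tmul, ha, hb]
  | add a b ha hb => rw [map_add, map_add, ha, hb]

/-- `Y ⊗[Λ] (P ⊗[R] K) = X ⊗[R] K`. -/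
noncomputable def TData.equ (T : TData (Λ := Λ) (R := R) (E := E) P Y X) :
    Y ⊗[Λ] (P ⊗[R] K) ≃+ X ⊗[R] K where
  toFun := T.bet K
  invFun := T.alp K
  left_inv := T.alp_bet K
  right_inv := T.bet_alp K
  map_add' := map_add _

theorem TData.bet_smul (T : TData (Λ := Λ) (R := R) (E := E) P Y X) (a : E)
    (t : Y ⊗[Λ] (P ⊗[R] K)) : T.bet K (a • t) = algebraMap E D a • T.bet K t := by
  induction t using TensorProduct.induction_on with
  | zero => rw [smul_zero, map_zero, smul_zero]
  | tmul y z =>
    rw [TensorProduct.smul_tmul']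
    induction z using TensorProduct.induction_on with
    | zero => rw [TensorProduct.tmul_zero, TensorProduct.tmul_zero, map_zero, smul_zero]
    | tmul l k =>
      rw [TData.bet_tmul, TData.bet_tmul, T.hE, TensorProduct.smul_tmul', algebraMap_smul]
    | add a b ha hb => rw [TensorProduct.tmul_add, map_add, TensorProduct.tmul_add, map_add,
        smul_add, ha, hb]
  | add a b ha hb => rw [smul_add, map_add, map_add, smul_add, ha, hb]

variable {K} {F : Type u} [AddCommGroup F] [Module R F]

/-- naturality. -/
theorem TData.bet_nat (T : TData (Λ := Λ) (R := R) (E := E) P Y X) (f : K →ₗ[R] F)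
    (t : Y ⊗[Λ] (P ⊗[R] K)) :
    T.bet F (((f.lTensor P).restrictScalars Λ).lTensor Y t) = f.lTensor X (T.bet K t) := by
  induction t using TensorProduct.induction_on with
  | zero => simp only [map_zero]
  | tmul y z =>
    induction z using TensorProduct.induction_on with
    | zero => simp only [TensorProduct.tmul_zero, map_zero]
    | tmul l k =>
      rw [TData.bet_tmul, LinearMap.lTensor_tmul, LinearMap.restrictScalars_apply,
        LinearMap.lTensor_tmul, LinearMap.lTensor_tmul, TData.bet_tmul]
    | add a b ha hb => simp only [TensorProduct.tmul_add, map_add, ha, hb]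
  | add a b ha hb => simp only [map_add, ha, hb]

end Cmp

end Vale.Agent.P177.B8
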