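import Vale.Agent.P177.B8.KEul
import Mathlib.RingTheory.FiniteLength
import Mathlib.RingTheory.Length

/-!
P177, block B8, part 2: devissage. `E` flat over a local ring `Λ`. For a module `N` of finite
length over `Λ` the Euler characteristic of `E ⊗ N` and `Y` is the length of `N` times the Euler
characteristic of `E ⊗ k` and `Y`.
-/

namespace Vale.Agent.P177.B8

open Vale.Agent.P202.Mix Vale.Agent.P177.Mass TensorProduct
open scoped ENNReal

universe u

variable {Λ E : Type u} [CommRing Λ] [CommRing E] [Algebra Λ E] (L : AddLen E)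
  (Y : Type u) [AddCommGroup Y] [Module E Y]

/-- isomorphic modules have the same length of Tor after base change. -/
theorem tl_baseChange_congr {N N' : Type u} [AddCommGroup N] [Module Λ N] [AddCommGroup N']
    [Module Λ N'] (e : N ≃ₗ[Λ] N') (j : ℕ) : tl L Y j (E ⊗[Λ] N) = tl L Y j (E ⊗[Λ] N') :=
  tl_congr L Y (e.baseChange Λ E N N') j

theorem tl_subsingleton {M : Type u} [AddCommGroup M] [Module E M] [Subsingleton M] (j : ℕ) :
    tl L Y j M = 0 := by
  have e : M ≃ₗ[E] PUnit.{u + 1} :=
    { toFun := fun _ => PUnit.unit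
      invFun := fun _ => 0
      map_add' := fun _ _ => rfl
      map_smul' := fun _ _ => rfl
      left_inv := fun _ => Subsingleton.elim _ _
      right_inv := fun _ => rfl }
  rw [tl_congr L Y e]
  cases j with
  | zero =>
    rw [tl_zero_eq]
    have : Subsingleton (PUnit.{u + 1} ⊗[E] Y) := by
      refine ⟨fun a b => ?_⟩
      have h : ∀ a : PUnit.{u + 1} ⊗[E] Y, a = 0 := by
        intro a
        induction a using TensorProduct.induction_on with
        | zero => rfl
        | tmul x y =>
          have : x = 0 := Subsingleton.elim _ _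
          rw [this, TensorProduct.zero_tmul]
        | add a b ha hb => rw [ha, hb, add_zero]
      rw [h a, h b]
    have e' : (PUnit.{u + 1} ⊗[E] Y) ≃ₗ[E] PUnit.{u + 1} :=
      { toFun := fun _ => PUnit.unit
        invFun := fun _ => 0
        map_add' := fun _ _ => rfl
        map_smul' := fun _ _ => rfl
        left_inv := fun _ => Subsingleton.elim _ _
        right_inv := fun _ => rfl }
    rw [len_congr L e', L.zero]
  | succ j =>
    have : Module.Flat E PUnit.{u + 1} := by
      have : Module.Free E PUnit.{u + 1} := Module.Free.of_subsingleton _ _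
      infer_instance
    have s : Subsingleton (TorM E (j + 1) PUnit.{u + 1} Y) := tor_subsingleton_of_flat j
    have e' : TorM E (j + 1) PUnit.{u + 1} Y ≃ₗ[E] PUnit.{u + 1} :=
      { toFun := fun _ => PUnit.unit
        invFun := fun _ => 0
        map_add' := fun _ _ => rfl
        map_smul' := fun _ _ => rfl
        left_inv := fun _ => Subsingleton.elim _ _
        right_inv := fun _ => rfl }
    exact (len_congr L e').trans L.zero

/-- **Devissage.** -/
theorem devissage [IsLocalRing Λ] [Module.Flat Λ E] (b : ℕ)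
    (hfin : ∀ j, tl L Y j (E ⊗[Λ] (Λ ⧸ IsLocalRing.maximalIdeal Λ)) ≠ ⊤)
    (hvan : ∀ j, b ≤ j → tl L Y j (E ⊗[Λ] (Λ ⧸ IsLocalRing.maximalIdeal Λ)) = 0)
    (N : Type u) [AddCommGroup N] [Module Λ N] (hN : IsFiniteLength Λ N) :
    (∀ j, tl L Y j (E ⊗[Λ] N) ≠ ⊤) ∧ (∀ j, b ≤ j → tl L Y j (E ⊗[Λ] N) = 0) ∧
      chi L Y (b + 1) (E ⊗[Λ] N) = ((Module.length Λ N).toNat : ℝ) *
        chi L Y (b + 1) (E ⊗[Λ] (Λ ⧸ IsLocalRing.maximalIdeal Λ)) := by
  induction hN with
  | of_subsingleton =>
    rename_i M _ _ _
    have : Subsingleton (E ⊗[Λ] M) := by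
      refine ⟨fun a b => ?_⟩
      have h : ∀ a : E ⊗[Λ] M, a = 0 := by
        intro a
        induction a using TensorProduct.induction_on with
        | zero => rfl
        | tmul x y =>
          have : y = 0 := Subsingleton.elim _ _
          rw [this, TensorProduct.tmul_zero]
        | add a b ha hb => rw [ha, hb, add_zero]
      rw [h a, h b]
    have h0 : ∀ j, tl L Y j (E ⊗[Λ] M) = 0 := fun j => tl_subsingleton L Y j
    refine ⟨fun j => by rw [h0]; exact ENNReal.zero_ne_top, fun j _ => h0 j, ?_⟩
    have h1 : Module.length Λ M = 0 := Module.length_eq_zero_iff.2 inferInstance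
    rw [h1]
    unfold chi
    simp [h0]
  | of_simple_quotient hN ih =>
    rename_i M _ _ N _
    obtain ⟨i1, i2, i3⟩ := ih
    obtain ⟨m, hm, ⟨e⟩⟩ := isSimpleModule_iff_quot_maximal.mp (‹IsSimpleModule Λ (M ⧸ N)›)
    obtain rfl := IsLocalRing.eq_maximalIdeal hm
    have q1 : ∀ j, tl L Y j (E ⊗[Λ] (M ⧸ N)) =
        tl L Y j (E ⊗[Λ] (Λ ⧸ IsLocalRing.maximalIdeal Λ)) := fun j => tl_baseChange_congr L Y e j
    have hf : Function.Injective (N.subtype.baseChange E) :=
      Module.Flat.lTensor_preserves_injective_linearMap (M := E) N.subtype N.injective_subtype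
    have hg : Function.Surjective (N.mkQ.baseChange E) :=
      LinearMap.lTensor_surjective E N.mkQ_surjective
    have hex : Function.Exact N.subtype N.mkQ := by
      rw [LinearMap.exact_iff, Submodule.ker_mkQ, Submodule.range_subtype]
    have hfg : Function.Exact (N.subtype.baseChange E) (N.mkQ.baseChange E) :=
      lTensor_exact E hex N.mkQ_surjective
    have hle := tl_le_add L Y _ _ hf hg hfg
    have q2 : chi L Y (b + 1) (E ⊗[Λ] (M ⧸ N)) =
        chi L Y (b + 1) (E ⊗[Λ] (Λ ⧸ IsLocalRing.maximalIdeal Λ)) := by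
      unfold chi
      exact Finset.sum_congr rfl fun j _ => by rw [q1]
    refine ⟨fun j => ne_top_of_le_ne_top (ENNReal.add_ne_top.2 ⟨i1 j, ?_⟩) (hle j),
      fun j hj => ?_, ?_⟩
    · rw [q1]
      exact hfin j
    · have := hle j
      rw [i2 j hj, q1, hvan j hj, add_zero] at this
      exact le_antisymm this bot_le
    · rw [chi_add L Y _ _ hf hg hfg b i1 (fun j => by rw [q1]; exact hfin j) (i2 b le_rfl), i3, q2]
      have h1 : Module.length Λ M = Module.length Λ N + 1 := by
        rw [Module.length_eq_add_of_exact N.subtype N.mkQ N.injective_subtype N.mkQ_surjective hex]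
        congr 1
        exact Module.length_eq_one (R := Λ) (M := M ⧸ N)
      have h2 : Module.length Λ N ≠ ⊤ := Module.length_ne_top_iff.2 hN
      rw [h1, ENat.toNat_add h2 ENat.one_ne_top]
      push_cast
      simp only [ENat.toNat_one, Nat.cast_one]
      ring

end Vale.Agent.P177.B8
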