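import Vale.Agent.P177.B8.Main

/-!
P177, block B8, part 5: the multiplicativity formula.
-/

namespace Vale.Agent.P177.B8

open Vale.Agent.P202.Mix Vale.Agent.P177.Mass TensorProduct IsLocalRing
open scoped ENNReal

universe u

variable {Λ R E D : Type u} [CommRing Λ] [CommRing R] [CommRing E] [CommRing D]
  [Algebra Λ R] [Algebra Λ E] [Algebra R D] [Algebra E D]
  {P : Type u} [AddCommGroup P] [Module R P] [Module Λ P] [IsScalarTower Λ R P]
  {Y : Type u} [AddCommGroup Y] [Module E Y] [Module Λ Y] [IsScalarTower Λ E Y]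
  {X : Type u} [AddCommGroup X] [Module D X] [Module R X] [IsScalarTower R D X]
  [Module E X] [IsScalarTower E D X]

section Seq

variable {K F : ℕ → Type u} [∀ i, AddCommGroup (K i)] [∀ i, Module R (K i)]
  [∀ i, AddCommGroup (F i)] [∀ i, Module R (F i)]
  (f : ∀ i, K (i + 1) →ₗ[R] F i) (g : ∀ i, F i →ₗ[R] K i)

variable (Λ P) in
/-- the homology of `P ⊗ F` over `Λ`: `Tor_i^R (K 0, P)` with its structure of `Λ`-module. -/
noncomputable def hΛ : ℕ → ModuleCat.{u} Λ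
  | 0 => ModuleCat.of Λ (P ⊗[R] (K 0))
  | i + 1 => ModuleCat.of Λ (LinearMap.ker ((f i).lTensor P))

theorem length_hΛ [IsLocalRing Λ] [IsLocalRing R] [IsLocalHom (algebraMap Λ R)]
    [∀ i, Module.Flat R (F i)] (hf : ∀ i, Function.Injective (f i))
    (hg : ∀ i, Function.Surjective (g i)) (h : ∀ i, Function.Exact (f i) (g i)) (i : ℕ) :
    Module.length Λ (hΛ Λ P f i) = Module.length R (TorM R i (K 0) P) *
      Module.length (ResidueField Λ) (ResidueField R) := by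
  cases i with
  | zero =>
    have h1 := IsLocalRing.length_restrictScalars Λ R (P ⊗[R] (K 0))
    have h2 : Module.length R (P ⊗[R] (K 0)) = Module.length R (TorM R 0 (K 0) P) :=
      LinearEquiv.length_eq ((TensorProduct.comm R P (K 0)).trans (torZero (K 0) P).symm)
    rw [← h2]
    exact h1
  | succ i =>
    have h1 := IsLocalRing.length_restrictScalars Λ R (LinearMap.ker ((f i).lTensor P))
    have h2 : Module.length R (LinearMap.ker ((f i).lTensor P)) =
        Module.length R (TorM R (i + 1) (K 0) P) := by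
      obtain ⟨e1⟩ := ker_comm (N := P) (f i)
      obtain ⟨e2⟩ := tor_syz K F f g hf hg h P i
      exact (LinearEquiv.length_eq e1).symm.trans (LinearEquiv.length_eq e2).symm
    rw [← h2]
    exact h1

variable (Λ P) in
/-- the inclusion of the homology. -/
noncomputable def ihΛ (i : ℕ) : hΛ Λ P f (i + 1) →ₗ[Λ] P ⊗[R] (K (i + 1)) :=
  (LinearMap.ker ((f i).lTensor P)).subtype.restrictScalars Λ

theorem ihΛ_injective (i : ℕ) : Function.Injective (ihΛ Λ P f i) :=
  Submodule.injective_subtype (LinearMap.ker ((f i).lTensor P))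

theorem ihΛ_exact (i : ℕ) :
    Function.Exact (ihΛ Λ P f i) (((f i).lTensor P).restrictScalars Λ) := by
  intro x
  constructor
  · intro hx
    exact ⟨(⟨x, hx⟩ : LinearMap.ker ((f i).lTensor P)), rfl⟩
  · rintro ⟨y, rfl⟩
    exact (show LinearMap.ker ((f i).lTensor P) from y).2

theorem ihΛ_injective' [Module.Flat Λ E] (i : ℕ) :
    Function.Injective ((ihΛ Λ P f i).baseChange E) :=
  Module.Flat.lTensor_preserves_injective_linearMap (M := E) (ihΛ Λ P f i) (ihΛ_injective f i)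

theorem ihΛ_exact' [Module.Flat Λ E] (i : ℕ) :
    Function.Exact ((ihΛ Λ P f i).baseChange E) (dd Λ E P (f i)) :=
  Module.Flat.lTensor_exact E (ihΛ_exact f i)

theorem dd_exact (hg : ∀ i, Function.Surjective (g i)) (h : ∀ i, Function.Exact (f i) (g i))
    (i : ℕ) : Function.Exact (dd Λ E P (f i)) (dd Λ E P (g i)) :=
  lTensor_exact E (lTensor_exact P (h i) (hg i)) (LinearMap.lTensor_surjective P (hg i))

theorem dd_surjective (hg : ∀ i, Function.Surjective (g i)) (i : ℕ) :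
    Function.Surjective (dd Λ E P (g i)) :=
  LinearMap.lTensor_surjective E (LinearMap.lTensor_surjective P (hg i))

omit [∀ i, AddCommGroup (F i)] [∀ i, Module R (F i)] in
theorem len_tor_zero (T : TData (Λ := Λ) (R := R) (E := E) P Y X) (LE : AddLen E)
    (LD : AddLen D)
    (hL : ∀ (M : Type u) [AddCommGroup M] [Module D M],
      LD.len M = @AddLen.len E _ LE M _ (Module.compHom M (algebraMap E D))) :
    LD.len (TorM D 0 X (D ⊗[R] (K 0))) = LE.len ((E ⊗[Λ] (P ⊗[R] (K 0))) ⊗[E] Y) := by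
  have h1 : LD.len (TorM D 0 X (D ⊗[R] (K 0))) = LD.len ((D ⊗[R] (K 0)) ⊗[D] X) :=
    len_congr LD ((torZero X (D ⊗[R] (K 0))).trans (TensorProduct.comm D X (D ⊗[R] (K 0))))
  exact h1.trans (T.len_cmp LE LD hL (K 0))

omit [Module Λ Y] [IsScalarTower Λ E Y] in
theorem tl_tensor_subsingleton (LE : AddLen E) (M : Type u) [AddCommGroup M] [Module Λ M]
    [Subsingleton M] (j : ℕ) : tl LE Y j (E ⊗[Λ] M) = 0 := by
  have : Subsingleton (E ⊗[Λ] M) := by
    refine ⟨fun a b => ?_⟩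
    have h : ∀ a : E ⊗[Λ] M, a = 0 := by
      intro a
      induction a using TensorProduct.induction_on with
      | zero => rfl
      | tmul x y =>
        have : y = 0 := Subsingleton.elim _ _
        rw [this, TensorProduct.tmul_zero]
      | add a b ha hb => rw [ha, hb, add_zero]
    rw [h a, h b]
  exact tl_subsingleton LE Y j

set_option maxSynthPendingDepth 3 in
theorem len_tor_succ [Module.Flat R D] [∀ i, Module.Flat R (F i)]
    (hf : ∀ i, Function.Injective (f i))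
    (hg : ∀ i, Function.Surjective (g i)) (h : ∀ i, Function.Exact (f i) (g i))
    (T : TData (Λ := Λ) (R := R) (E := E) P Y X) (LE : AddLen E) (LD : AddLen D)
    (hL : ∀ (M : Type u) [AddCommGroup M] [Module D M],
      LD.len M = @AddLen.len E _ LE M _ (Module.compHom M (algebraMap E D))) (i : ℕ) :
    LD.len (TorM D (i + 1) X (D ⊗[R] (K 0))) =
      LE.len (LinearMap.ker ((dd Λ E P (f i)).rTensor Y)) := by
  have hs : ∀ (a : E) (x : (E ⊗[Λ] (P ⊗[R] (K (i + 1)))) ⊗[E] Y),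
    T.cmp (D := D) (K (i + 1)) (a • x) = algebraMap E D a • T.cmp (D := D) (K (i + 1)) x :=
    fun a x => T.cmp_smul a x
  have hn : ∀ x : (E ⊗[Λ] (P ⊗[R] (K (i + 1)))) ⊗[E] Y,
      T.cmp (D := D) (F i) ((dd Λ E P (f i)).rTensor Y x) =
      ((f i).baseChange D).rTensor X (T.cmp (D := D) (K (i + 1)) x) := fun x => T.cmp_nat (f i) x
  exact len_tor_D K F f g hf hg h LE LD hL i ((dd Λ E P (f i)).rTensor Y)
    (T.cmp (D := D) (K (i + 1))) (T.cmp (D := D) (F i)) hs hn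

set_option maxSynthPendingDepth 3 in
theorem b8_kunneth [Module.Flat Λ E]
    [Module.Flat R D] [∀ i, Module.Flat R (F i)] (hPF : ∀ i, Module.Flat Λ (P ⊗[R] (F i)))
    (hf : ∀ i, Function.Injective (f i))
    (hg : ∀ i, Function.Surjective (g i)) (h : ∀ i, Function.Exact (f i) (g i))
    (T : TData (Λ := Λ) (R := R) (E := E) P Y X) (LE : AddLen E) (LD : AddLen D)
    (hL : ∀ (M : Type u) [AddCommGroup M] [Module D M],
      LD.len M = @AddLen.len E _ LE M _ (Module.compHom M (algebraMap E D)))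
    (b : ℕ) (hb : 1 ≤ b)
    (hfin : ∀ i j, tl LE Y j (E ⊗[Λ] (hΛ Λ P f i)) ≠ ⊤)
    (hvan : ∀ i j, b ≤ j → tl LE Y j (E ⊗[Λ] (hΛ Λ P f i)) = 0)
    (d : ℕ) (hd : ∀ i, d ≤ i → ∀ j, tl LE Y j (E ⊗[Λ] (hΛ Λ P f i)) = 0) :
    (∀ i, LD.len (TorM D i X (D ⊗[R] (K 0))) ≠ ⊤) ∧ ∀ n, d + b ≤ n →
      ∑ i ∈ Finset.range n, (-1 : ℝ) ^ i * (LD.len (TorM D i X (D ⊗[R] (K 0)))).toReal =
        ∑ i ∈ Finset.range n, (-1 : ℝ) ^ i * chi LE Y (b + 1) (E ⊗[Λ] (hΛ Λ P f i)) := by
  have hGflat : ∀ i, Module.Flat E (E ⊗[Λ] (P ⊗[R] (F i))) := fun i => by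
    have := hPF i
    infer_instance
  have hw : ∀ i, LD.len (TorM D (i + 1) X (D ⊗[R] (K 0))) =
      LE.len (LinearMap.ker ((dd Λ E P (f i)).rTensor Y)) :=
    fun i => len_tor_succ f g hf hg h T LE LD hL i
  exact kunneth LE Y (fun i => E ⊗[Λ] (P ⊗[R] (F i)))
    (fun i => E ⊗[Λ] (P ⊗[R] (K i))) (fun i => E ⊗[Λ] (hΛ Λ P f i))
    (fun i => dd Λ E P (f i)) (fun i => dd Λ E P (g i))
    (fun i => (ihΛ Λ P f i).baseChange E) (LinearEquiv.refl E _) (ihΛ_injective' f)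
    (ihΛ_exact' f) (dd_exact f g hg h) (dd_surjective g hg) b d hb hfin hvan hd
    (fun i => LD.len (TorM D i X (D ⊗[R] (K 0)))) (len_tor_zero T LE LD hL) hw

theorem b8_seq [IsLocalRing Λ] [IsLocalRing R] [IsLocalHom (algebraMap Λ R)] [Module.Flat Λ E]
    [Module.Flat R D] [∀ i, Module.Flat R (F i)] (hPF : ∀ i, Module.Flat Λ (P ⊗[R] (F i)))
    (hf : ∀ i, Function.Injective (f i))
    (hg : ∀ i, Function.Surjective (g i)) (h : ∀ i, Function.Exact (f i) (g i))
    (T : TData (Λ := Λ) (R := R) (E := E) P Y X) (LE : AddLen E) (LD : AddLen D)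
    (hL : ∀ (M : Type u) [AddCommGroup M] [Module D M],
      LD.len M = @AddLen.len E _ LE M _ (Module.compHom M (algebraMap E D)))
    (b : ℕ) (hb : 1 ≤ b)
    (hfin : ∀ j, tl LE Y j (E ⊗[Λ] (Λ ⧸ maximalIdeal Λ)) ≠ ⊤)
    (hvan : ∀ j, b ≤ j → tl LE Y j (E ⊗[Λ] (Λ ⧸ maximalIdeal Λ)) = 0)
    (d : ℕ) (hd : ∀ i, d ≤ i → Subsingleton (TorM R i (K 0) P))
    (hfl : ∀ i, Module.length R (TorM R i (K 0) P) ≠ ⊤)
    (hρ : Module.length (ResidueField Λ) (ResidueField R) = 1) :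
    (∀ i, LD.len (TorM D i X (D ⊗[R] (K 0))) ≠ ⊤) ∧ ∀ n, d + b ≤ n →
      ∑ i ∈ Finset.range n, (-1 : ℝ) ^ i * (LD.len (TorM D i X (D ⊗[R] (K 0)))).toReal =
        (eulerTor R n (K 0) P : ℝ) * chi LE Y (b + 1) (E ⊗[Λ] (Λ ⧸ maximalIdeal Λ)) := by
  have hlen : ∀ i, Module.length Λ (hΛ Λ P f i) = Module.length R (TorM R i (K 0) P) := fun i => by
    rw [length_hΛ f g hf hg h, hρ, mul_one]
  have hflΛ : ∀ i, IsFiniteLength Λ (hΛ Λ P f i) := fun i => by
    rw [← Module.length_ne_top_iff, hlen]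
    exact hfl i
  have dev := fun i => devissage LE Y b hfin hvan (hΛ Λ P f i) (hflΛ i)
  have hnull : ∀ i, d ≤ i → ∀ j, tl LE Y j (E ⊗[Λ] (hΛ Λ P f i)) = 0 := fun i hi j => by
    have : Subsingleton (hΛ Λ P f i) := by
      rw [← Module.length_eq_zero_iff (R := Λ), hlen, Module.length_eq_zero_iff]
      exact hd i hi
    exact tl_tensor_subsingleton LE _ j
  obtain ⟨k1, k2⟩ := b8_kunneth f g hPF hf hg h T LE LD hL b hb (fun i => (dev i).1)
    (fun i => (dev i).2.1) d hnull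
  refine ⟨k1, fun n hn => ?_⟩
  rw [k2 n hn]
  have h3 : ∀ i, chi LE Y (b + 1) (E ⊗[Λ] (hΛ Λ P f i)) =
      ((Module.length R (TorM R i (K 0) P)).toNat : ℝ) *
        chi LE Y (b + 1) (E ⊗[Λ] (Λ ⧸ maximalIdeal Λ)) := fun i => by
    rw [(dev i).2.2, hlen]
  unfold eulerTor
  push_cast
  rw [Finset.sum_mul]
  exact Finset.sum_congr rfl fun i _ => by rw [h3]; ring

end Seq

/-- **The multiplicativity formula (B8).** `X = Y ⊗[Λ] P` with `P` flat over the local ring `Λ`: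
the Euler characteristic of `X` and `D ⊗ A` over `D`, for the additive length `LD`, is the Euler
characteristic of `A` and `P` over `R` times the Euler characteristic of the residue field of `Λ`
and `Y` over `E`. -/
theorem b8 [IsLocalRing Λ] [IsLocalRing R] [IsLocalHom (algebraMap Λ R)] [Module.Flat Λ E]
    [Module.Flat R D] [Module.Flat Λ P]
    (T : TData (Λ := Λ) (R := R) (E := E) P Y X) (LE : AddLen E) (LD : AddLen D)
    (hL : ∀ (M : Type u) [AddCommGroup M] [Module D M],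
      LD.len M = @AddLen.len E _ LE M _ (Module.compHom M (algebraMap E D)))
    (A : Type u) [AddCommGroup A] [Module R A] (b : ℕ) (hb : 1 ≤ b)
    (hfin : ∀ j, tl LE Y j (E ⊗[Λ] (Λ ⧸ maximalIdeal Λ)) ≠ ⊤)
    (hvan : ∀ j, b ≤ j → tl LE Y j (E ⊗[Λ] (Λ ⧸ maximalIdeal Λ)) = 0)
    (d : ℕ) (hd : ∀ i, d ≤ i → Subsingleton (TorM R i A P))
    (hfl : ∀ i, Module.length R (TorM R i A P) ≠ ⊤)
    (hρ : Module.length (ResidueField Λ) (ResidueField R) = 1) :
    (∀ i, LD.len (TorM D i X (D ⊗[R] A)) ≠ ⊤) ∧ ∀ n, d + b ≤ n →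
      ∑ i ∈ Finset.range n, (-1 : ℝ) ^ i * (LD.len (TorM D i X (D ⊗[R] A))).toReal =
        (eulerTor R n A P : ℝ) * chi LE Y (b + 1) (E ⊗[Λ] (Λ ⧸ maximalIdeal Λ)) :=
  b8_seq (K := fun i => syz (ModuleCat.of R A) i) (F := Fs (ModuleCat.of R A))
    (fs (ModuleCat.of R A)) (gs (ModuleCat.of R A)) (fun _ => flat_finsupp_tensor _)
    (fs_injective _) (gs_surjective _) (fs_exact _) T LE LD hL b hb hfin hvan d hd hfl hρ

end Vale.Agent.P177.B8
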