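import Vale.Agent.P177.Mass.Mass
import Vale.Agent.P177.TorShift

/-!
P177, block B8, part 1: the Künneth formula for Euler characteristics, for an additive length.

`G i` flat modules, `C i` the cokernels of a complex `... → G 1 → G 0`, `H i` its homology. Then
the alternating sum of the lengths of `ker (C (i + 1) ⊗ Y → G i ⊗ Y)` (the homology of `G ⊗ Y`) is
the alternating sum of the Euler characteristics of `H i` and `Y`.
-/

namespace Vale.Agent.P177.B8

open Vale.Agent.P202.Mix Vale.Agent.P177.Mass TensorProduct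
open scoped ENNReal

universe u

variable {R : Type u} [CommRing R] (L : AddLen R)

section Nums

variable {A B C : ℕ → Type u} [∀ j, AddCommGroup (A j)] [∀ j, Module R (A j)]
  [∀ j, AddCommGroup (B j)] [∀ j, Module R (B j)] [∀ j, AddCommGroup (C j)] [∀ j, Module R (C j)]
  (f : ∀ j, A j →ₗ[R] B j) (g : ∀ j, B j →ₗ[R] C j) (d : ∀ j, C (j + 1) →ₗ[R] A j)

theorem len_exact {M N K : Type u} [AddCommGroup M] [Module R M] [AddCommGroup N] [Module R N]
    [AddCommGroup K] [Module R K] (f : M →ₗ[R] N) (g : N →ₗ[R] K) (h : Function.Exact f g) :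
    L.len N = L.len (LinearMap.range f) + L.len (LinearMap.range g) := by
  rw [len_ker_range L g]
  have : LinearMap.ker g = LinearMap.range f := by
    rw [LinearMap.exact_iff] at h
    exact h
  rw [this]

/-- numerical identity of a long exact sequence. -/
theorem alt_sum {A B C a b r : ℕ → ℝ} (hA : ∀ j, A j = r j + a j) (hB : ∀ j, B j = a j + b j)
    (hC : ∀ j, C (j + 1) = b (j + 1) + r j) (n : ℕ) :
    ∑ j ∈ Finset.range n, (-1 : ℝ) ^ j * (A (j + 1) - B (j + 1) + C (j + 1)) =
      r 0 - (-1) ^ n * r n := by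
  induction n with
  | zero => simp
  | succ n ih =>
    rw [Finset.sum_range_succ, ih, hA, hB, hC, pow_succ]
    ring

end Nums

section Tor

variable (Y : Type u) [AddCommGroup Y] [Module R Y]

/-- the length of `Tor_j (M, Y)`. -/
noncomputable def tl (j : ℕ) (M : Type u) [AddCommGroup M] [Module R M] : ℝ≥0∞ :=
  L.len (TorM R j M Y)

/-- the Euler characteristic of `M` and `Y`, up to degree `n - 1`. -/
noncomputable def chi (n : ℕ) (M : Type u) [AddCommGroup M] [Module R M] : ℝ :=
  ∑ j ∈ Finset.range n, (-1 : ℝ) ^ j * (tl L Y j M).toReal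

/-- the part of positive degree of the Euler characteristic. -/
noncomputable def ee (n : ℕ) (M : Type u) [AddCommGroup M] [Module R M] : ℝ :=
  ∑ j ∈ Finset.range n, (-1 : ℝ) ^ j * (tl L Y (j + 1) M).toReal

variable {M' M M'' : Type u} [AddCommGroup M'] [Module R M'] [AddCommGroup M] [Module R M]
  [AddCommGroup M''] [Module R M'']

theorem chi_succ (n : ℕ) : chi L Y (n + 1) M = (tl L Y 0 M).toReal - ee L Y n M := by
  unfold chi ee
  rw [Finset.sum_range_succ', sub_eq_add_neg, ← Finset.sum_neg_distrib, add_comm]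
  congr 1
  · simp
  · exact Finset.sum_congr rfl fun j _ => by rw [pow_succ]; ring

theorem tl_congr (e : M ≃ₗ[R] M') (j : ℕ) : tl L Y j M = tl L Y j M' :=
  len_congr L (torCongrLeft j e Y)

theorem tl_zero_eq : tl L Y 0 M = L.len (M ⊗[R] Y) := len_congr L (torZero M Y)

variable (f : M' →ₗ[R] M) (g : M →ₗ[R] M'')

/-- The numbers attached to the long exact sequence of Tor. -/
theorem tor_nums (hf : Function.Injective f) (hg : Function.Surjective g)
    (h : Function.Exact f g) : ∃ b r : ℕ → ℝ≥0∞,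
    (∀ j, tl L Y j M' = r j + L.len (LinearMap.range (torMap j f Y))) ∧
    (∀ j, tl L Y j M = L.len (LinearMap.range (torMap j f Y)) + b j) ∧
    (∀ j, tl L Y (j + 1) M'' = b (j + 1) + r j) ∧ tl L Y 0 M'' = b 0 := by
  obtain ⟨δ, h1, h2, h3⟩ := exists_torDelta f g hf hg h Y
  refine ⟨fun j => L.len (LinearMap.range (torMap j g Y)),
    fun j => L.len (LinearMap.range (δ j)), fun j => len_exact L _ _ (h2 j),
    fun j => len_exact L _ _ (h3 j), fun j => len_exact L _ _ (h1 j), ?_⟩
  have hs : Function.Surjective (torMap 0 g Y) := by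
    intro x
    obtain ⟨y, hy⟩ := LinearMap.rTensor_surjective Y hg (torZero M'' Y x)
    refine ⟨(torZero M Y).symm y, ?_⟩
    apply (torZero M'' Y).injective
    rw [torZero_naturality, LinearEquiv.apply_symm_apply, hy]
  show tl L Y 0 M'' = L.len (LinearMap.range (torMap 0 g Y))
  rw [LinearMap.range_eq_top.2 hs]
  exact (len_congr L (Submodule.topEquiv (R := R) (M := TorM R 0 M'' Y))).symm

/-- finiteness in a short exact sequence (middle term). -/
theorem tl_le_add (hf : Function.Injective f) (hg : Function.Surjective g)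
    (h : Function.Exact f g) (j : ℕ) : tl L Y j M ≤ tl L Y j M' + tl L Y j M'' := by
  obtain ⟨b, r, h1, h2, h3, h4⟩ := tor_nums L Y f g hf hg h
  rw [h1, h2]
  have : b j ≤ tl L Y j M'' := by
    cases j with
    | zero => rw [h4]
    | succ j => rw [h3]; exact le_self_add
  exact add_le_add le_add_self this

/-- **Additivity of the Euler characteristic.** -/
theorem chi_add (hf : Function.Injective f) (hg : Function.Surjective g)
    (h : Function.Exact f g) (n : ℕ) (h' : ∀ j, tl L Y j M' ≠ ⊤) (h'' : ∀ j, tl L Y j M'' ≠ ⊤)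
    (hn : tl L Y n M' = 0) :
    chi L Y (n + 1) M = chi L Y (n + 1) M' + chi L Y (n + 1) M'' := by
  obtain ⟨b, r, h1, h2, h3, h4⟩ := tor_nums L Y f g hf hg h
  have hbt : ∀ j, b j ≠ ⊤ := by
    intro j
    have := h'' j
    cases j with
    | zero => rwa [h4] at this
    | succ j => rw [h3] at this; exact (ENNReal.add_ne_top.1 this).1
  have hrt : ∀ j, r j ≠ ⊤ := fun j => by
    have := h' j
    rw [h1] at this
    exact (ENNReal.add_ne_top.1 this).1
  have hat : ∀ j, L.len (LinearMap.range (torMap j f Y)) ≠ ⊤ := fun j => by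
    have := h' j
    rw [h1] at this
    exact (ENNReal.add_ne_top.1 this).2
  have key := alt_sum (A := fun j => (tl L Y j M').toReal) (B := fun j => (tl L Y j M).toReal)
    (C := fun j => (tl L Y j M'').toReal)
    (a := fun j => (L.len (LinearMap.range (torMap j f Y))).toReal) (b := fun j => (b j).toReal)
    (r := fun j => (r j).toReal)
    (fun j => by rw [h1, ENNReal.toReal_add (hrt j) (hat j)])
    (fun j => by rw [h2, ENNReal.toReal_add (hat j) (hbt j)])
    (fun j => by rw [h3, ENNReal.toReal_add (hbt _) (hrt j)]) n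
  have hr : r n = 0 := by
    have := h1 n
    rw [hn] at this
    exact (add_eq_zero.1 this.symm).1
  simp only [hr, ENNReal.toReal_zero, mul_zero, sub_zero] at key
  have e1 : ∑ j ∈ Finset.range n, (-1 : ℝ) ^ j *
      ((tl L Y (j + 1) M').toReal - (tl L Y (j + 1) M).toReal + (tl L Y (j + 1) M'').toReal) =
      ee L Y n M' - ee L Y n M + ee L Y n M'' := by
    unfold ee
    rw [← Finset.sum_sub_distrib, ← Finset.sum_add_distrib]
    exact Finset.sum_congr rfl fun j _ => by ring
  rw [e1] at key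
  rw [chi_succ, chi_succ, chi_succ, h1 0, h2 0, h4, ENNReal.toReal_add (hrt 0) (hat 0),
    ENNReal.toReal_add (hat 0) (hbt 0)]
  linarith

end Tor

section Step

variable (Y : Type u) [AddCommGroup Y] [Module R Y]
variable {H C' G C : Type u} [AddCommGroup H] [Module R H] [AddCommGroup C'] [Module R C']
  [AddCommGroup G] [Module R G] [AddCommGroup C] [Module R C]

/-- length of the kernel of a composition with surjective first map. -/
theorem len_ker_comp {M N K : Type u} [AddCommGroup M] [Module R M] [AddCommGroup N] [Module R N]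
    [AddCommGroup K] [Module R K] (f : M →ₗ[R] N) (g : N →ₗ[R] K) (hf : Function.Surjective f) :
    L.len (LinearMap.ker (g ∘ₗ f)) = L.len (LinearMap.ker f) + L.len (LinearMap.ker g) := by
  have hle : LinearMap.ker f ≤ LinearMap.ker (g ∘ₗ f) := by
    intro x hx
    rw [LinearMap.mem_ker] at hx ⊢
    rw [LinearMap.comp_apply, hx, map_zero]
  refine L.add (Submodule.inclusion hle)
    ((f ∘ₗ (LinearMap.ker (g ∘ₗ f)).subtype).codRestrict (LinearMap.ker g) fun x => x.2)
    (Submodule.inclusion_injective hle) ?_ ?_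
  · rintro ⟨y, hy⟩
    obtain ⟨x, rfl⟩ := hf y
    exact ⟨⟨x, hy⟩, rfl⟩
  · intro x
    constructor
    · intro hx
      have : f x.1 = 0 := congrArg Subtype.val hx
      exact ⟨⟨x.1, this⟩, rfl⟩
    · rintro ⟨y, rfl⟩
      exact Subtype.ext y.2

variable (ι : H →ₗ[R] C') (δ : C' →ₗ[R] G) (π : G →ₗ[R] C)

/-- One step of the Künneth formula. -/
theorem step [Module.Flat R G] (hι : Function.Injective ι) (hιδ : Function.Exact ι δ)
    (hδπ : Function.Exact δ π) (hπ : Function.Surjective π) (b : ℕ) (hb : 1 ≤ b)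
    (hH : ∀ j, tl L Y j H ≠ ⊤) (hH0 : ∀ j, b ≤ j → tl L Y j H = 0)
    (hC : ∀ j, 1 ≤ j → tl L Y j C ≠ ⊤) (hC0 : ∀ j, b ≤ j → tl L Y j C = 0) :
    (∀ j, 1 ≤ j → tl L Y j C' ≠ ⊤) ∧ (∀ j, b ≤ j → tl L Y j C' = 0) ∧
      L.len (LinearMap.ker (δ.rTensor Y)) ≠ ⊤ ∧
      (L.len (LinearMap.ker (δ.rTensor Y))).toReal =
        chi L Y (b + 1) H + ee L Y b C + ee L Y b C' := by
  let B := LinearMap.range δ
  let δ' : C' →ₗ[R] B := δ.rangeRestrict
  have hδ' : Function.Surjective δ' := δ.surjective_rangeRestrict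
  have hιδ' : Function.Exact ι δ' := by
    intro x
    rw [← hιδ x]
    constructor
    · intro hx
      exact congrArg Subtype.val hx
    · intro hx
      exact Subtype.ext hx
  have hBπ : Function.Exact B.subtype π := by
    intro x
    rw [hδπ x]
    constructor
    · rintro ⟨y, rfl⟩
      exact ⟨⟨δ y, ⟨y, rfl⟩⟩, rfl⟩
    · rintro ⟨⟨_, ⟨y, rfl⟩⟩, rfl⟩
      exact ⟨y, rfl⟩
  have hshift : ∀ j, tl L Y (j + 1) B = tl L Y (j + 2) C := by
    intro j
    obtain ⟨e⟩ := tor_shift B.subtype π B.injective_subtype hπ hBπ Y j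
    exact (len_congr L e).symm
  have h1C : tl L Y 1 C = L.len (LinearMap.ker (B.subtype.rTensor Y)) := by
    obtain ⟨e⟩ := tor_one B.subtype π B.injective_subtype hπ hBπ Y
    exact len_congr L e
  obtain ⟨bb, r, h1, h2, h3, h4⟩ := tor_nums L Y ι δ' hι hδ' hιδ'
  have hB : ∀ j, 1 ≤ j → tl L Y j B ≠ ⊤ := by
    intro j hj
    obtain ⟨j, rfl⟩ := Nat.exists_eq_add_of_le' hj
    rw [hshift]
    exact hC _ (by omega)
  have hB0 : ∀ j, b ≤ j → tl L Y j B = 0 := by
    intro j hj
    obtain ⟨j, rfl⟩ := Nat.exists_eq_add_of_le' (hb.trans hj)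
    rw [hshift]
    exact hC0 _ (by omega)
  have hC' : ∀ j, 1 ≤ j → tl L Y j C' ≠ ⊤ := fun j hj =>
    ne_top_of_le_ne_top (ENNReal.add_ne_top.2 ⟨hH j, hB j hj⟩) (tl_le_add L Y ι δ' hι hδ' hιδ' j)
  have hC'0 : ∀ j, b ≤ j → tl L Y j C' = 0 := fun j hj => by
    have := tl_le_add L Y ι δ' hι hδ' hιδ' j
    rw [hH0 j hj, hB0 j hj, add_zero] at this
    exact le_antisymm this bot_le
  -- the range of `H ⊗ Y → C' ⊗ Y`
  have hran : L.len (LinearMap.ker (δ'.rTensor Y)) =
      L.len (LinearMap.range (torMap 0 ι Y)) := by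
    have e1 : LinearMap.ker (δ'.rTensor Y) = LinearMap.range (ι.rTensor Y) := by
      have := rTensor_exact Y hιδ' hδ'
      rw [LinearMap.exact_iff] at this
      exact this
    rw [e1]
    have e2 : LinearMap.range (torMap 0 ι Y) =
        (LinearMap.range (ι.rTensor Y)).map (torZero C' Y).symm.toLinearMap := by
      ext x
      simp only [LinearMap.mem_range, Submodule.mem_map]
      constructor
      · rintro ⟨y, rfl⟩
        refine ⟨ι.rTensor Y (torZero H Y y), ⟨_, rfl⟩, ?_⟩
        apply (torZero C' Y).injective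
        rw [torZero_naturality]
        exact LinearEquiv.apply_symm_apply _ _
      · rintro ⟨_, ⟨y, rfl⟩, rfl⟩
        refine ⟨(torZero H Y).symm y, ?_⟩
        apply (torZero C' Y).injective
        rw [torZero_naturality, LinearEquiv.apply_symm_apply]
        exact (LinearEquiv.apply_symm_apply _ _).symm
    rw [e2]
    exact len_congr L ((torZero C' Y).symm.submoduleMap _)
  have hcomp : L.len (LinearMap.ker (δ.rTensor Y)) =
      L.len (LinearMap.range (torMap 0 ι Y)) + tl L Y 1 C := by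
    have e1 : δ.rTensor Y = (B.subtype.rTensor Y) ∘ₗ (δ'.rTensor Y) := by
      rw [← LinearMap.rTensor_comp]
      rfl
    rw [e1, len_ker_comp L _ _ (LinearMap.rTensor_surjective Y hδ'), hran, h1C]
  have hrt : ∀ j, r j ≠ ⊤ := fun j => by
    have := hH j
    rw [h1] at this
    exact (ENNReal.add_ne_top.1 this).1
  have hat : ∀ j, L.len (LinearMap.range (torMap j ι Y)) ≠ ⊤ := fun j => by
    have := hH j
    rw [h1] at this
    exact (ENNReal.add_ne_top.1 this).2
  have hbt : ∀ j, bb (j + 1) ≠ ⊤ := by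
    intro j
    have := hB (j + 1) (by omega)
    rw [h3] at this
    exact (ENNReal.add_ne_top.1 this).1
  refine ⟨hC', hC'0, ?_, ?_⟩
  · rw [hcomp]
    exact ENNReal.add_ne_top.2 ⟨hat 0, hC 1 le_rfl⟩
  have hr : r b = 0 := by
    have := h1 b
    rw [hH0 b le_rfl] at this
    exact (add_eq_zero.1 this.symm).1
  have key : ∀ n, ∑ j ∈ Finset.range n, (-1 : ℝ) ^ j * ((tl L Y (j + 1) H).toReal -
      (tl L Y (j + 1) C').toReal + (tl L Y (j + 1) B).toReal) =
      (r 0).toReal - (-1) ^ n * (r n).toReal := by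
    intro n
    induction n with
    | zero => simp
    | succ n ih =>
      rw [Finset.sum_range_succ, ih, h1, h2, h3, ENNReal.toReal_add (hrt _) (hat _),
        ENNReal.toReal_add (hat _) (hbt _), ENNReal.toReal_add (hbt _) (hrt _), pow_succ]
      ring
  have key' := key b
  rw [hr, ENNReal.toReal_zero, mul_zero, sub_zero] at key'
  have e1 : ∑ j ∈ Finset.range b, (-1 : ℝ) ^ j * ((tl L Y (j + 1) H).toReal -
      (tl L Y (j + 1) C').toReal + (tl L Y (j + 1) B).toReal) =
      ee L Y b H - ee L Y b C' + ∑ j ∈ Finset.range b, (-1 : ℝ) ^ j * (tl L Y (j + 2) C).toReal := by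
    unfold ee
    rw [← Finset.sum_sub_distrib, ← Finset.sum_add_distrib]
    exact Finset.sum_congr rfl fun j _ => by rw [hshift]; ring
  have e2 : ee L Y b C = (tl L Y 1 C).toReal -
      ∑ j ∈ Finset.range b, (-1 : ℝ) ^ j * (tl L Y (j + 2) C).toReal := by
    have h5 : ee L Y (b + 1) C = ee L Y b C := by
      unfold ee
      rw [Finset.sum_range_succ, hC0 (b + 1) (by omega)]
      simp
    rw [← h5]
    unfold ee
    rw [Finset.sum_range_succ', sub_eq_add_neg, ← Finset.sum_neg_distrib, add_comm]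
    congr 1
    · simp
    · exact Finset.sum_congr rfl fun j _ => by rw [pow_succ]; ring
  rw [e1] at key'
  rw [hcomp, ENNReal.toReal_add (hat 0) (hC 1 le_rfl), chi_succ, e2, h1 0,
    ENNReal.toReal_add (hrt 0) (hat 0)]
  linarith

/-- If `H` is invisible, the vanishing range of Tor improves by one. -/
theorem step_null [Module.Flat R G] (hι : Function.Injective ι) (hιδ : Function.Exact ι δ)
    (hδπ : Function.Exact δ π) (hπ : Function.Surjective π) (c : ℕ) (hc : 1 ≤ c)
    (hH0 : ∀ j, tl L Y j H = 0) (hC0 : ∀ j, c + 1 ≤ j → tl L Y j C = 0) :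
    ∀ j, c ≤ j → tl L Y j C' = 0 := by
  let B := LinearMap.range δ
  let δ' : C' →ₗ[R] B := δ.rangeRestrict
  have hδ' : Function.Surjective δ' := δ.surjective_rangeRestrict
  have hιδ' : Function.Exact ι δ' := by
    intro x
    rw [← hιδ x]
    constructor
    · intro hx
      exact congrArg Subtype.val hx
    · intro hx
      exact Subtype.ext hx
  have hBπ : Function.Exact B.subtype π := by
    intro x
    rw [hδπ x]
    constructor
    · rintro ⟨y, rfl⟩
      exact ⟨⟨δ y, ⟨y, rfl⟩⟩, rfl⟩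
    · rintro ⟨⟨_, ⟨y, rfl⟩⟩, rfl⟩
      exact ⟨y, rfl⟩
  intro j hj
  have h1 := tl_le_add L Y ι δ' hι hδ' hιδ' j
  have h2 : tl L Y j B = 0 := by
    obtain ⟨j, rfl⟩ := Nat.exists_eq_add_of_le' (hc.trans hj)
    obtain ⟨e⟩ := tor_shift B.subtype π B.injective_subtype hπ hBπ Y j
    exact (len_congr L e).symm.trans (hC0 _ (by omega))
  rw [hH0 j, h2, add_zero] at h1
  exact le_antisymm h1 bot_le

end Step

section Kunneth

variable (Y : Type u) [AddCommGroup Y] [Module R Y]

/-- **The Künneth formula for Euler characteristics.** `G i` flat, `δ i : C (i + 1) → G i` with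
cokernel `C i`, and `H (i + 1)` the kernel of `δ i`, `H 0 = C 0`. -/
theorem kunneth (G C H : ℕ → Type u) [∀ i, AddCommGroup (G i)] [∀ i, Module R (G i)]
    [∀ i, AddCommGroup (C i)] [∀ i, Module R (C i)] [∀ i, AddCommGroup (H i)]
    [∀ i, Module R (H i)] [∀ i, Module.Flat R (G i)]
    (δ : ∀ i, C (i + 1) →ₗ[R] G i) (π : ∀ i, G i →ₗ[R] C i) (ι : ∀ i, H (i + 1) →ₗ[R] C (i + 1))
    (e₀ : H 0 ≃ₗ[R] C 0) (hι : ∀ i, Function.Injective (ι i))
    (hιδ : ∀ i, Function.Exact (ι i) (δ i)) (hδπ : ∀ i, Function.Exact (δ i) (π i))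
    (hπ : ∀ i, Function.Surjective (π i)) (b d : ℕ) (hb : 1 ≤ b)
    (hH : ∀ i j, tl L Y j (H i) ≠ ⊤) (hH0 : ∀ i j, b ≤ j → tl L Y j (H i) = 0)
    (hd : ∀ i, d ≤ i → ∀ j, tl L Y j (H i) = 0)
    (w : ℕ → ℝ≥0∞) (hw0 : w 0 = L.len (C 0 ⊗[R] Y))
    (hw : ∀ i, w (i + 1) = L.len (LinearMap.ker ((δ i).rTensor Y))) :
    (∀ i, w i ≠ ⊤) ∧ ∀ n, d + b ≤ n →
      ∑ i ∈ Finset.range n, (-1 : ℝ) ^ i * (w i).toReal =
        ∑ i ∈ Finset.range n, (-1 : ℝ) ^ i * chi L Y (b + 1) (H i) := by
  have main : ∀ i, (∀ j, 1 ≤ j → tl L Y j (C i) ≠ ⊤) ∧ (∀ j, b ≤ j → tl L Y j (C i) = 0) ∧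
      w i ≠ ⊤ ∧ ∑ k ∈ Finset.range (i + 1), (-1 : ℝ) ^ k * (w k).toReal =
        ∑ k ∈ Finset.range (i + 1), (-1 : ℝ) ^ k * chi L Y (b + 1) (H k) +
          (-1) ^ i * ee L Y b (C i) := by
    intro i
    induction i with
    | zero =>
      have h1 : ∀ j, tl L Y j (C 0) = tl L Y j (H 0) := fun j => (tl_congr L Y e₀ j).symm
      refine ⟨fun j _ => by rw [h1]; exact hH 0 j, fun j hj => by rw [h1]; exact hH0 0 j hj, ?_, ?_⟩
      · rw [hw0, ← tl_zero_eq, h1]
        exact hH 0 0
      · have h2 : ee L Y b (H 0) = ee L Y b (C 0) := by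
          unfold ee
          exact Finset.sum_congr rfl fun j _ => by rw [h1]
        simp only [zero_add, Finset.range_one, Finset.sum_singleton, pow_zero, one_mul]
        rw [hw0, ← tl_zero_eq, chi_succ, h1, h2]
        ring
    | succ i ih =>
      obtain ⟨h1, h2, -, h4⟩ := ih
      obtain ⟨k1, k2, k3, k4⟩ := step L Y (ι i) (δ i) (π i) (hι i) (hιδ i) (hδπ i) (hπ i) b hb
        (hH (i + 1)) (hH0 (i + 1)) h1 h2
      refine ⟨k1, k2, by rw [hw]; exact k3, ?_⟩
      rw [Finset.sum_range_succ, h4, Finset.sum_range_succ _ (i + 1), hw, k4, pow_succ]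
      ring
  refine ⟨fun i => (main i).2.2.1, fun n hn => ?_⟩
  -- the last remainder vanishes
  have tail : ∀ m, m + 1 ≤ b → ∀ j, b - m ≤ j → tl L Y j (C (d + m)) = 0 := by
    intro m
    induction m with
    | zero => intro _ j hj; exact (main _).2.1 j (by omega)
    | succ m ih =>
      intro hm j hj
      exact step_null L Y (ι (d + m)) (δ (d + m)) (π (d + m)) (hι _) (hιδ _) (hδπ _) (hπ _)
        (b - (m + 1)) (by omega) (hd _ (by omega))
        (fun j hj => ih (by omega) j (by omega)) j hj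
  have tail' : ∀ m, ∀ j, 1 ≤ j → tl L Y j (C (d + (b - 1) + m)) = 0 := by
    intro m
    induction m with
    | zero => intro j hj; exact tail (b - 1) (by omega) j (by omega)
    | succ m ih =>
      intro j hj
      exact step_null L Y (ι (d + (b - 1) + m)) (δ _) (π _) (hι _) (hιδ _) (hδπ _) (hπ _)
        1 le_rfl (hd _ (by omega)) (fun j hj => ih j (by omega)) j hj
  obtain ⟨m, rfl⟩ : ∃ m, n = d + (b - 1) + m + 1 := ⟨n - (d + b), by omega⟩
  rw [(main (d + (b - 1) + m)).2.2.2]
  have : ee L Y b (C (d + (b - 1) + m)) = 0 := by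
    unfold ee
    refine Finset.sum_eq_zero fun j _ => ?_
    rw [tail' m (j + 1) (by omega)]
    simp
  rw [this, mul_zero, add_zero]

end Kunneth

end Vale.Agent.P177.B8
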