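import Vale.Agent.P177.B8.Cmp
import Vale.Agent.P177.Transfer
import Mathlib.RingTheory.LocalRing.Length

/-!
P177, block B8, part 4: `χ_D (X, D ⊗ A) = χ_R (A, P) * χ_E (k, Y)` for `X = Y ⊗[Λ] P`, `P` flat
over the local ring `Λ`.
-/

namespace Vale.Agent.P177.B8

open Vale.Agent.P202.Mix Vale.Agent.P177.Mass TensorProduct IsLocalRing
open scoped ENNReal

universe u

variable {Λ R E D : Type u} [CommRing Λ] [CommRing R] [CommRing E] [CommRing D]
  [Algebra Λ R] [Algebra Λ E] [Algebra R D] [Algebra E D]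

/-- Lengths of isomorphic modules over `D` and `E`. -/
theorem len_addEquiv (LE : AddLen E) (LD : AddLen D)
    (hL : ∀ (M : Type u) [AddCommGroup M] [Module D M],
      LD.len M = @AddLen.len E _ LE M _ (Module.compHom M (algebraMap E D)))
    {M N : Type u} [AddCommGroup M] [Module D M] [AddCommGroup N] [Module E N] (e : M ≃+ N)
    (he : ∀ (a : E) (x : M), e (algebraMap E D a • x) = a • e x) : LD.len M = LE.len N := by
  rw [hL M]
  let _ := Module.compHom M (algebraMap E D)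
  exact len_congr LE { e with map_smul' := he }

variable {P : Type u} [AddCommGroup P] [Module R P] [Module Λ P] [IsScalarTower Λ R P]
  {Y : Type u} [AddCommGroup Y] [Module E Y] [Module Λ Y] [IsScalarTower Λ E Y]
  {X : Type u} [AddCommGroup X] [Module D X] [Module R X] [IsScalarTower R D X]
  [Module E X] [IsScalarTower E D X]
  {K : Type u} [AddCommGroup K] [Module R K] {F : Type u} [AddCommGroup F] [Module R F]

/-- the `E`-linear map `E ⊗ (P ⊗ K) → E ⊗ (P ⊗ F)` attached to `f : K → F`. -/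
noncomputable def dd (Λ E P : Type u) [CommRing Λ] [CommRing E] [Algebra Λ R] [Algebra Λ E]
    [AddCommGroup P] [Module R P] [Module Λ P] [IsScalarTower Λ R P] (f : K →ₗ[R] F) :
    E ⊗[Λ] (P ⊗[R] K) →ₗ[E] E ⊗[Λ] (P ⊗[R] F) :=
  ((f.lTensor P).restrictScalars Λ).baseChange E

/-- The isomorphism of (E ⊗ (P ⊗ K)) ⊗ Y with Y ⊗ (P ⊗ K). -/
noncomputable def cE (Λ E P Y : Type u) [CommRing Λ] [CommRing E] [Algebra Λ R] [Algebra Λ E]
    [AddCommGroup P] [Module R P] [Module Λ P] [IsScalarTower Λ R P] [AddCommGroup Y] [Module E Y]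
    [Module Λ Y] [IsScalarTower Λ E Y] (K : Type u) [AddCommGroup K] [Module R K] :
    (E ⊗[Λ] (P ⊗[R] K)) ⊗[E] Y ≃ₗ[E] Y ⊗[Λ] (P ⊗[R] K) :=
  (TensorProduct.comm E _ _).trans (AlgebraTensorModule.cancelBaseChange Λ E E Y (P ⊗[R] K))

theorem cE_tmul (a : E) (t : P ⊗[R] K) (y : Y) :
    cE (Λ := Λ) (E := E) (P := P) (Y := Y) K ((a ⊗ₜ t) ⊗ₜ y) = (a • y) ⊗ₜ t := rfl

theorem cE_nat (f : K →ₗ[R] F) (z : (E ⊗[Λ] (P ⊗[R] K)) ⊗[E] Y) :
    cE (Λ := Λ) (E := E) (P := P) (Y := Y) F ((dd Λ E P f).rTensor Y z) =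
      ((f.lTensor P).restrictScalars Λ).lTensor Y
        (cE (Λ := Λ) (E := E) (P := P) (Y := Y) K z) := by
  induction z using TensorProduct.induction_on with
  | zero => simp only [map_zero]
  | tmul w y =>
    induction w using TensorProduct.induction_on with
    | zero => simp only [TensorProduct.zero_tmul, map_zero]
    | tmul a t =>
      rw [LinearMap.rTensor_tmul, cE_tmul, LinearMap.lTensor_tmul]
      unfold dd
      rw [LinearMap.baseChange_tmul, cE_tmul]
    | add a b ha hb => simp only [TensorProduct.add_tmul, map_add, ha, hb]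
  | add a b ha hb => simp only [map_add, ha, hb]

/-- The isomorphism of (D ⊗ K) ⊗ X with X ⊗ K. -/
noncomputable def cD (D X : Type u) [CommRing D] [Algebra R D] [AddCommGroup X] [Module D X]
    [Module R X] [IsScalarTower R D X] (K : Type u) [AddCommGroup K] [Module R K] :
    (D ⊗[R] K) ⊗[D] X ≃ₗ[D] X ⊗[R] K :=
  (TensorProduct.comm D _ _).trans (AlgebraTensorModule.cancelBaseChange R D D X K)

theorem cD_tmul (a : D) (k : K) (x : X) :
    cD (R := R) D X K ((a ⊗ₜ k) ⊗ₜ x) = (a • x) ⊗ₜ k := rfl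

theorem cD_nat (f : K →ₗ[R] F) (z : (D ⊗[R] K) ⊗[D] X) :
    cD (R := R) D X F ((f.baseChange D).rTensor X z) = f.lTensor X (cD (R := R) D X K z) := by
  induction z using TensorProduct.induction_on with
  | zero => simp only [map_zero]
  | tmul w y =>
    induction w using TensorProduct.induction_on with
    | zero => simp only [TensorProduct.zero_tmul, map_zero]
    | tmul a t =>
      rw [LinearMap.rTensor_tmul, cD_tmul, LinearMap.lTensor_tmul, LinearMap.baseChange_tmul,
        cD_tmul]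
    | add a b ha hb => simp only [TensorProduct.add_tmul, map_add, ha, hb]
  | add a b ha hb => simp only [map_add, ha, hb]

/-- The comparison of (E ⊗ (P ⊗ K)) ⊗ Y with (D ⊗ K) ⊗ X. -/
noncomputable def TData.cmp (T : TData (Λ := Λ) (R := R) (E := E) P Y X)
    (K : Type u) [AddCommGroup K] [Module R K] :
    (E ⊗[Λ] (P ⊗[R] K)) ⊗[E] Y ≃+ (D ⊗[R] K) ⊗[D] X :=
  ((cE (Λ := Λ) (E := E) (P := P) (Y := Y) K).toAddEquiv.trans (T.equ K)).trans
    (cD (R := R) D X K).symm.toAddEquiv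

theorem TData.cD_cmp (T : TData (Λ := Λ) (R := R) (E := E) P Y X)
    (z : (E ⊗[Λ] (P ⊗[R] K)) ⊗[E] Y) :
    cD (R := R) D X K (T.cmp K z) =
      T.bet K (cE (Λ := Λ) (E := E) (P := P) (Y := Y) K z) :=
  (cD (R := R) D X K).apply_symm_apply _

theorem TData.cmp_smul (T : TData (Λ := Λ) (R := R) (E := E) P Y X) (a : E)
    (z : (E ⊗[Λ] (P ⊗[R] K)) ⊗[E] Y) :
    T.cmp (D := D) K (a • z) = algebraMap E D a • T.cmp K z := by
  apply (cD (R := R) D X K).injective
  rw [T.cD_cmp, map_smul, T.bet_smul (D := D) K, map_smul, T.cD_cmp]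

theorem TData.cmp_nat (T : TData (Λ := Λ) (R := R) (E := E) P Y X) (f : K →ₗ[R] F)
    (z : (E ⊗[Λ] (P ⊗[R] K)) ⊗[E] Y) :
    T.cmp (D := D) F ((dd Λ E P f).rTensor Y z) = (f.baseChange D).rTensor X (T.cmp K z) := by
  apply (cD (R := R) D X F).injective
  rw [T.cD_cmp, cE_nat, T.bet_nat, cD_nat, T.cD_cmp]

/-- comparison of lengths. -/
theorem TData.len_cmp (T : TData (Λ := Λ) (R := R) (E := E) P Y X) (LE : AddLen E) (LD : AddLen D)
    (hL : ∀ (M : Type u) [AddCommGroup M] [Module D M],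
      LD.len M = @AddLen.len E _ LE M _ (Module.compHom M (algebraMap E D)))
    (K : Type u) [AddCommGroup K] [Module R K] :
    LD.len ((D ⊗[R] K) ⊗[D] X) = LE.len ((E ⊗[Λ] (P ⊗[R] K)) ⊗[E] Y) := by
  refine len_addEquiv LE LD hL (T.cmp K).symm fun a x => ?_
  apply (T.cmp (D := D) K).injective
  rw [AddEquiv.apply_symm_apply, T.cmp_smul, AddEquiv.apply_symm_apply]

theorem len_ker_semi (LE : AddLen E) (LD : AddLen D)
    (hL : ∀ (M : Type u) [AddCommGroup M] [Module D M],
      LD.len M = @AddLen.len E _ LE M _ (Module.compHom M (algebraMap E D)))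
    {A B A' B' : Type u} [AddCommGroup A] [Module D A] [AddCommGroup B] [Module D B]
    [AddCommGroup A'] [Module E A'] [AddCommGroup B'] [Module E B'] (φ : A →ₗ[D] B)
    (ψ : A' →ₗ[E] B') (eA : A' ≃+ A) (eB : B' ≃+ B)
    (hs : ∀ (a : E) (x : A'), eA (a • x) = algebraMap E D a • eA x)
    (hn : ∀ x, eB (ψ x) = φ (eA x)) :
    LD.len (LinearMap.ker φ) = LE.len (LinearMap.ker ψ) := by
  have h1 : ∀ x : LinearMap.ker φ, eA.symm x.1 ∈ LinearMap.ker ψ := by
    intro x
    rw [LinearMap.mem_ker]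
    apply eB.injective
    rw [hn, AddEquiv.apply_symm_apply, map_zero]
    exact x.2
  have h2 : ∀ x : LinearMap.ker ψ, eA x.1 ∈ LinearMap.ker φ := by
    intro x
    rw [LinearMap.mem_ker, ← hn, show ψ x.1 = 0 from x.2, map_zero]
  let e : LinearMap.ker φ ≃+ LinearMap.ker ψ :=
    { toFun := fun x => ⟨eA.symm x.1, h1 x⟩
      invFun := fun x => ⟨eA x.1, h2 x⟩
      left_inv := fun x => Subtype.ext (eA.apply_symm_apply x.1)
      right_inv := fun x => Subtype.ext (eA.symm_apply_apply x.1)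
      map_add' := fun x y => Subtype.ext (map_add eA.symm x.1 y.1) }
  refine len_addEquiv LE LD hL e fun a x => ?_
  apply Subtype.ext
  change eA.symm (algebraMap E D a • x.1) = a • eA.symm x.1
  apply eA.injective
  rw [AddEquiv.apply_symm_apply, hs, AddEquiv.apply_symm_apply]

/-! ### Flatness -/

theorem flat_finsupp_tensor [Module.Flat Λ P] (ι : Type u) :
    Module.Flat Λ (P ⊗[R] (ι →₀ R)) := by
  classical
  have h1 : Module.Flat Λ (ι →₀ P) :=
    Module.Flat.of_linearEquiv (finsuppLEquivDirectSum Λ P ι)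
  exact Module.Flat.of_linearEquiv
    ((TensorProduct.finsuppScalarRight R R P ι).restrictScalars Λ)

/-! ### The homology over `Λ` -/

theorem len_tor_abs (LE : AddLen E) (LD : AddLen D)
    (hL : ∀ (M : Type u) [AddCommGroup M] [Module D M],
      LD.len M = @AddLen.len E _ LE M _ (Module.compHom M (algebraMap E D)))
    (K F : ℕ → Type u) [∀ i, AddCommGroup (K i)]
    [∀ i, Module D (K i)] [∀ i, AddCommGroup (F i)] [∀ i, Module D (F i)]
    (hF : ∀ i, Module.Flat D (F i))
    (f : ∀ i, K (i + 1) →ₗ[D] F i) (g : ∀ i, F i →ₗ[D] K i) (hf : ∀ i, Function.Injective (f i))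
    (hg : ∀ i, Function.Surjective (g i)) (h : ∀ i, Function.Exact (f i) (g i)) (X : Type u)
    [AddCommGroup X] [Module D X] (i : ℕ)
    {C' G' : Type u} [AddCommGroup C'] [Module E C']
    [AddCommGroup G'] [Module E G'] (ψ : C' →ₗ[E] G')
    (eA : C' ≃+ K (i + 1) ⊗[D] X) (eB : G' ≃+ F i ⊗[D] X)
    (hs : ∀ (a : E) (x : C'), eA (a • x) = algebraMap E D a • eA x)
    (hn : ∀ x, eB (ψ x) = (f i).rTensor X (eA x)) :
    LD.len (TorM D (i + 1) X (K 0)) = LE.len (LinearMap.ker ψ) := by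
  obtain ⟨e1⟩ := tor_symm (R := D) (i + 1) X (K 0)
  obtain ⟨e2⟩ := tor_syz K F f g hf hg h X i
  exact ((len_congr LD e1).trans (len_congr LD e2)).trans
    (len_ker_semi LE LD hL ((f i).rTensor X) ψ eA eB hs hn)

section Seq

variable (K F : ℕ → Type u) [∀ i, AddCommGroup (K i)] [∀ i, Module R (K i)]
  [∀ i, AddCommGroup (F i)] [∀ i, Module R (F i)]
  (f : ∀ i, K (i + 1) →ₗ[R] F i) (g : ∀ i, F i →ₗ[R] K i)

theorem len_tor_D [Module.Flat R D] [∀ i, Module.Flat R (F i)]
    (hf : ∀ i, Function.Injective (f i))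
    (hg : ∀ i, Function.Surjective (g i)) (h : ∀ i, Function.Exact (f i) (g i))
    (LE : AddLen E) (LD : AddLen D)
    (hL : ∀ (M : Type u) [AddCommGroup M] [Module D M],
      LD.len M = @AddLen.len E _ LE M _ (Module.compHom M (algebraMap E D)))
    (i : ℕ) {X : Type u} [AddCommGroup X] [Module D X]
    {C' G' : Type u} [AddCommGroup C'] [Module E C']
    [AddCommGroup G'] [Module E G'] (ψ : C' →ₗ[E] G')
    (eA : C' ≃+ (D ⊗[R] (K (i + 1))) ⊗[D] X) (eB : G' ≃+ (D ⊗[R] (F i)) ⊗[D] X)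
    (hs : ∀ (a : E) (x : C'), eA (a • x) = algebraMap E D a • eA x)
    (hn : ∀ x, eB (ψ x) = ((f i).baseChange D).rTensor X (eA x)) :
    LD.len (TorM D (i + 1) X (D ⊗[R] (K 0))) = LE.len (LinearMap.ker ψ) :=
  len_tor_abs LE LD hL (fun i => D ⊗[R] (K i)) (fun i => D ⊗[R] (F i)) (fun _ => inferInstance)
    (fun i => (f i).baseChange D) (fun i => (g i).baseChange D)
    (fun i => Module.Flat.lTensor_preserves_injective_linearMap (M := D) (f i) (hf i))
    (fun i => LinearMap.lTensor_surjective D (hg i))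
    (fun i => lTensor_exact D (h i) (hg i)) X i ψ eA eB hs hn

end Seq

end Vale.Agent.P177.B8
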