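import Vale.Agent.P177.B8.Final
import Vale.Agent.P177.Ap.TenMod

/-!
P177, block B8, part 6: the multiplicativity formula for `X = Y ⊗[Λ] P`, `D = R ⊗[ℤ] W`,
`E = Λ ⊗[ℤ] W`.
-/

namespace Vale.Agent.P177.B8

open Vale.Agent.P202.Mix Vale.Agent.P177.Mass Vale.Agent.P177.Ap TensorProduct IsLocalRing
open scoped ENNReal

universe u

section Pull

variable {W S T : Type u} [CommRing W] [CommRing S] [CommRing T]

theorem len_sub0 (L : AddLen W) (M : Type u) [AddCommGroup M] [Module W M] [Subsingleton M] :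
    L.len M = 0 := by
  have e : M ≃ₗ[W] PUnit.{u + 1} :=
    { toFun := fun _ => PUnit.unit
      map_add' := fun _ _ => rfl
      map_smul' := fun _ _ => rfl
      invFun := fun _ => 0
      left_inv := fun _ => Subsingleton.elim _ _
      right_inv := fun _ => rfl }
  rw [len_congr L e, L.zero]

/-- the additive length on `S`-modules induced by `i : W → S`. -/
noncomputable def pullL (i : W →+* S) (L : AddLen W) : AddLen S where
  len M _ _ := @AddLen.len W _ L M _ (Module.compHom M i)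
  zero := by
    let _ : Module W PUnit.{u + 1} := Module.compHom PUnit.{u + 1} i
    exact len_sub0 L PUnit.{u + 1}
  add := by
    intro M N K _ _ _ _ _ _ f g hf hg h
    let _ : Module W M := Module.compHom M i
    let _ : Module W N := Module.compHom N i
    let _ : Module W K := Module.compHom K i
    exact L.add (M := M) (N := N) (K := K)
      { toFun := f, map_add' := f.map_add, map_smul' := fun w x => f.map_smul (i w) x }
      { toFun := g, map_add' := g.map_add, map_smul' := fun w x => g.map_smul (i w) x } hf hg h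

theorem pullL_len (i : W →+* S) (L : AddLen W) (M : Type u) [AddCommGroup M] [Module S M]
    [Module W M] (h : ∀ (w : W) (x : M), w • x = i w • x) : (pullL i L).len M = L.len M := by
  have h1 : (pullL i L).len M = @AddLen.len W _ L M _ (Module.compHom M i) := rfl
  rw [h1]
  congr 1
  ext w x
  exact (h w x).symm

theorem pullL_comp (i : W →+* S) (j : S →+* T) (L : AddLen W) (M : Type u) [AddCommGroup M]
    [Module T M] : (pullL (j.comp i) L).len M =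
      @AddLen.len S _ (pullL i L) M _ (Module.compHom M j) := by
  let _ : Module W M := Module.compHom M (j.comp i)
  let _ : Module S M := Module.compHom M j
  rw [pullL_len (j.comp i) L M fun _ _ => rfl]
  exact (pullL_len i L M fun _ _ => rfl).symm

end Pull

section Ten

variable {Λ R W : Type u} [CommRing Λ] [CommRing R] [Algebra Λ R] [CommRing W] (φ : Λ →+* W)

/-- The ring homomorphism `Λ ⊗ W → W` given by `φ` and the identity. -/
noncomputable def augE : Λ ⊗[ℤ] W →+* W :=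
  (Algebra.TensorProduct.lift φ.toIntAlgHom (AlgHom.id ℤ W) fun _ _ => Commute.all _ _).toRingHom

theorem augE_tmul (a : Λ) (w : W) : augE φ (a ⊗ₜ w) = φ a * w :=
  Algebra.TensorProduct.lift_tmul _ _ _ _ _

variable (Y : Type u) [AddCommGroup Y] [Module W Y]

/-- `Λ ⊗ W` acts on `Y` through `W`. -/
noncomputable instance LM.moduleE : Module (Λ ⊗[ℤ] W) (LM φ Y) := Module.compHom (LM φ Y) (augE φ)

theorem LM.smulE_def (z : Λ ⊗[ℤ] W) (y : LM φ Y) : z • y = augE φ z • y := rfl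

instance LM.towerE : IsScalarTower Λ (Λ ⊗[ℤ] W) (LM φ Y) where
  smul_assoc a z y := by
    rw [LM.smulE_def, LM.smul_def, LM.smulE_def, smul_smul]
    congr 1
    induction z using TensorProduct.induction_on with
    | zero => rw [smul_zero, map_zero, mul_zero]
    | tmul b w =>
      rw [TensorProduct.smul_tmul', augE_tmul, augE_tmul, smul_eq_mul, map_mul, mul_assoc]
    | add x y hx hy => rw [smul_add, map_add, map_add, hx, hy, mul_add]

variable (Λ R W) in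
/-- The ring homomorphism `Λ ⊗ W → R ⊗ W`. -/
noncomputable def mapED : Λ ⊗[ℤ] W →+* R ⊗[ℤ] W :=
  (Algebra.TensorProduct.map (algebraMap Λ R).toIntAlgHom (AlgHom.id ℤ W)).toRingHom

theorem mapED_tmul (a : Λ) (w : W) : mapED Λ R W (a ⊗ₜ w) = algebraMap Λ R a ⊗ₜ w :=
  Algebra.TensorProduct.map_tmul _ _ _ _

theorem mapED_inW : (mapED Λ R W).comp (inW Λ W) = inW R W := by
  ext w
  change mapED Λ R W ((1 : Λ) ⊗ₜ w) = (1 : R) ⊗ₜ w
  rw [mapED_tmul, map_one]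

variable {Y} {P : Type u} [AddCommGroup P] [Module R P] [Module Λ P] [IsScalarTower Λ R P]
  {X : Type u} [AddCommGroup X] [Module (R ⊗[ℤ] W) X]

variable {φ} in
theorem mapED_smul (e : LM φ Y ⊗[Λ] P ≃+ X)
    (hR : ∀ (r : R) (y : LM φ Y) (l : P), e (y ⊗ₜ (r • l)) = inR R W r • e (y ⊗ₜ l))
    (hW : ∀ (w : W) (y : LM φ Y) (l : P), e ((w • y) ⊗ₜ l) = inW R W w • e (y ⊗ₜ l))
    (a : Λ ⊗[ℤ] W) (y : LM φ Y) (l : P) :
    e ((a • y) ⊗ₜ l) = mapED Λ R W a • e (y ⊗ₜ l) := by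
  induction a using TensorProduct.induction_on with
  | zero =>
    have h0 : (0 : Λ ⊗[ℤ] W) • y = 0 := zero_smul _ _
    rw [h0, TensorProduct.zero_tmul, map_zero, map_zero]
    exact (zero_smul (R ⊗[ℤ] W) (e (y ⊗ₜ[Λ] l))).symm
  | tmul a w =>
    have h1 : (a ⊗ₜ[ℤ] w : Λ ⊗[ℤ] W) • y = a • (w • y) := by
      rw [LM.smulE_def, augE_tmul, LM.smul_def, mul_smul]
    have h2 : (mapED Λ R W (a ⊗ₜ w)) = inR R W (algebraMap Λ R a) * inW R W w := by
      rw [mapED_tmul]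
      change _ = (algebraMap Λ R a ⊗ₜ[ℤ] (1 : W)) * ((1 : R) ⊗ₜ[ℤ] w)
      rw [Algebra.TensorProduct.tmul_mul_tmul, one_mul, mul_one]
    rw [h1, TensorProduct.smul_tmul, h2, mul_smul, ← hW, ← hR, algebraMap_smul]
  | add a b ha hb =>
    have h0 : (a + b : Λ ⊗[ℤ] W) • y = a • y + b • y := add_smul _ _ _
    rw [h0, TensorProduct.add_tmul, map_add, ha, hb, map_add, add_smul]

variable {φ} in
/-- **The multiplicativity formula (B8)** for `X = Y ⊗[Λ] P`, `D = R ⊗ W`, `E = Λ ⊗ W`. -/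
theorem b8_equiv [IsLocalRing Λ] [IsLocalRing R] [IsLocalHom (algebraMap Λ R)] [Module.Flat ℤ W]
    [Module.Flat Λ P] (e : LM φ Y ⊗[Λ] P ≃+ X)
    (hR : ∀ (r : R) (y : LM φ Y) (l : P), e (y ⊗ₜ (r • l)) = inR R W r • e (y ⊗ₜ l))
    (hW : ∀ (w : W) (y : LM φ Y) (l : P), e ((w • y) ⊗ₜ l) = inW R W w • e (y ⊗ₜ l))
    (L : AddLen W) (A : Type u) [AddCommGroup A] [Module R A] (b : ℕ) (hb : 1 ≤ b)
    (hfin : ∀ j, tl (pullL (inW Λ W) L) (LM φ Y) j
      ((Λ ⊗[ℤ] W) ⊗[Λ] (Λ ⧸ maximalIdeal Λ)) ≠ ⊤)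
    (hvan : ∀ j, b ≤ j → tl (pullL (inW Λ W) L) (LM φ Y) j
      ((Λ ⊗[ℤ] W) ⊗[Λ] (Λ ⧸ maximalIdeal Λ)) = 0)
    (d : ℕ) (hd : ∀ i, d ≤ i → Subsingleton (TorM R i A P))
    (hfl : ∀ i, Module.length R (TorM R i A P) ≠ ⊤)
    (hρ : Module.length (ResidueField Λ) (ResidueField R) = 1) :
    (∀ i, (pullL (inW R W) L).len (TorM (R ⊗[ℤ] W) i X ((R ⊗[ℤ] W) ⊗[R] A)) ≠ ⊤) ∧
    ∀ n, d + b ≤ n → ∑ i ∈ Finset.range n, (-1 : ℝ) ^ i *
        ((pullL (inW R W) L).len (TorM (R ⊗[ℤ] W) i X ((R ⊗[ℤ] W) ⊗[R] A))).toReal =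
      (eulerTor R n A P : ℝ) * chi (pullL (inW Λ W) L) (LM φ Y) (b + 1)
        ((Λ ⊗[ℤ] W) ⊗[Λ] (Λ ⧸ maximalIdeal Λ)) := by
  let _ : Algebra (Λ ⊗[ℤ] W) (R ⊗[ℤ] W) := (mapED Λ R W).toAlgebra
  let _ : Module R X := Module.compHom X (inR R W)
  let _ : Module (Λ ⊗[ℤ] W) X := Module.compHom X (mapED Λ R W)
  have _ : IsScalarTower R (R ⊗[ℤ] W) X := ⟨fun r z x => by
    have h1 : r • z = inR R W r * z := Algebra.smul_def r z
    rw [h1, mul_smul]
    rfl⟩
  have _ : IsScalarTower (Λ ⊗[ℤ] W) (R ⊗[ℤ] W) X := ⟨fun r z x => by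
    have h1 : r • z = mapED Λ R W r * z := Algebra.smul_def r z
    rw [h1, mul_smul]
    rfl⟩
  let T : TData (Λ := Λ) (R := R) (E := Λ ⊗[ℤ] W) P (LM φ Y) X :=
    { e := e
      hE := fun a y l => mapED_smul e hR hW a y l
      hR := hR }
  exact b8 T (pullL (inW Λ W) L) (pullL (inW R W) L)
    (fun M _ _ => by rw [← mapED_inW (Λ := Λ) (R := R)]; exact pullL_comp _ _ L M) A b hb hfin
    hvan d hd hfl hρ

variable (Y P) in
/-- **The multiplicativity formula (B8)** for `TenM φ Y P`. -/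
theorem b8_ten [IsLocalRing Λ] [IsLocalRing R] [IsLocalHom (algebraMap Λ R)] [Module.Flat ℤ W]
    [Module.Flat Λ P] (L : AddLen W) (A : Type u) [AddCommGroup A] [Module R A] (b : ℕ)
    (hb : 1 ≤ b)
    (hfin : ∀ j, tl (pullL (inW Λ W) L) (LM φ Y) j
      ((Λ ⊗[ℤ] W) ⊗[Λ] (Λ ⧸ maximalIdeal Λ)) ≠ ⊤)
    (hvan : ∀ j, b ≤ j → tl (pullL (inW Λ W) L) (LM φ Y) j
      ((Λ ⊗[ℤ] W) ⊗[Λ] (Λ ⧸ maximalIdeal Λ)) = 0)
    (d : ℕ) (hd : ∀ i, d ≤ i → Subsingleton (TorM R i A P))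
    (hfl : ∀ i, Module.length R (TorM R i A P) ≠ ⊤)
    (hρ : Module.length (ResidueField Λ) (ResidueField R) = 1) :
    (∀ i, (pullL (inW R W) L).len
      (TorM (R ⊗[ℤ] W) i (TenM φ Y P) ((R ⊗[ℤ] W) ⊗[R] A)) ≠ ⊤) ∧
    ∀ n, d + b ≤ n → ∑ i ∈ Finset.range n, (-1 : ℝ) ^ i *
        ((pullL (inW R W) L).len
          (TorM (R ⊗[ℤ] W) i (TenM φ Y P) ((R ⊗[ℤ] W) ⊗[R] A))).toReal =
      (eulerTor R n A P : ℝ) * chi (pullL (inW Λ W) L) (LM φ Y) (b + 1)
        ((Λ ⊗[ℤ] W) ⊗[Λ] (Λ ⧸ maximalIdeal Λ)) :=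
  b8_equiv (AddEquiv.refl (TenM φ Y P))
    (fun r y l => (inR_smul_tmul r y l).symm) (fun w y l => (inW_smul_tmul w y l).symm)
    L A b hb hfin hvan d hd hfl hρ

end Ten

end Vale.Agent.P177.B8
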