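import Vale.Agent.P177.B8.Ten
import Vale.Agent.P177.Perf.KTor

/-!
P177, block B8, part 7: the lengths of `Tor (E ⊗ Λ/m, Y)` are the lengths of the Koszul homology
of `Y`.
-/

namespace Vale.Agent.P177.B8

open Vale.Agent.P202.Mix Vale.Agent.P177.Mass Vale.Agent.P177.Ap TensorProduct IsLocalRing
open Vale.Agent.P177.KG RingTheory.Sequence
open scoped ENNReal

universe u

variable {Λ W : Type u} [CommRing Λ] [CommRing W] (φ : Λ →+* W) (Y : Type u) [AddCommGroup Y]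
  [Module W Y]

theorem augE_inW (w : W) : augE φ (inW Λ W w) = w := by
  change augE φ ((1 : Λ) ⊗ₜ w) = w
  rw [augE_tmul, map_one, one_mul]

theorem augE_algebraMap (a : Λ) : augE φ (algebraMap Λ (Λ ⊗[ℤ] W) a) = φ a := by
  change augE φ (a ⊗ₜ[ℤ] (1 : W)) = φ a
  rw [augE_tmul, mul_one]

/-- `Tor_j (E ⊗ Λ/(ys), Y)` and the Koszul homology of `Y`, lengths. -/
theorem tl_koszul (L : AddLen W) [Module.Flat ℤ W] {ys : List Λ} (hreg : IsWeaklyRegular Λ ys)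
    (j : ℕ) : tl (pullL (inW Λ W) L) (LM φ Y) j ((Λ ⊗[ℤ] W) ⊗[Λ] (Λ ⧸ Ideal.ofList ys)) =
      L.len ((KC (R := W) Y (ys.map φ)).H j) := by
  obtain ⟨e1⟩ := tor_symm (R := Λ ⊗[ℤ] W) j ((Λ ⊗[ℤ] W) ⊗[Λ] (Λ ⧸ Ideal.ofList ys)) (LM φ Y)
  obtain ⟨e2⟩ := tor_equiv_flat (A := Λ) (D := Λ ⊗[ℤ] W) hreg j (LM φ Y)
  let _ : Algebra (Λ ⊗[ℤ] W) W := (augE φ).toAlgebra
  have _ : IsScalarTower (Λ ⊗[ℤ] W) W (LM φ Y) := ⟨fun a w y => by
    have h1 : a • w = augE φ a * w := Algebra.smul_def a w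
    rw [h1, mul_smul]
    rfl⟩
  have e3 := cH (C := Λ ⊗[ℤ] W) (D := W) (M := LM φ Y) (ys.map (algebraMap Λ (Λ ⊗[ℤ] W))) j
  have h4 : (ys.map (algebraMap Λ (Λ ⊗[ℤ] W))).map (algebraMap (Λ ⊗[ℤ] W) W) = ys.map φ := by
    rw [List.map_map]
    exact List.map_congr_left fun a _ => augE_algebraMap φ a
  rw [h4] at e3
  unfold tl
  rw [Mass.len_congr _ e1, Mass.len_congr _ e2, Mass.len_congr _ e3]
  let _ : Module W (Rs (Λ ⊗[ℤ] W) W ((KC (R := W) (LM φ Y) (ys.map φ)).H j)) :=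
    inferInstanceAs (Module W ((KC (R := W) (LM φ Y) (ys.map φ)).H j))
  rw [pullL_len (inW Λ W) L (Rs (Λ ⊗[ℤ] W) W ((KC (R := W) (LM φ Y) (ys.map φ)).H j))
    (fun w x => by
      change w • (show (KC (R := W) (LM φ Y) (ys.map φ)).H j from x) =
        augE φ (inW Λ W w) • (show (KC (R := W) (LM φ Y) (ys.map φ)).H j from x)
      rw [augE_inW])]
  rfl

section Max

variable [IsLocalRing Λ]

theorem tl_koszul_max (L : AddLen W) [Module.Flat ℤ W] {ys : List Λ}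
    (hreg : IsWeaklyRegular Λ ys) (hm : Ideal.ofList ys = maximalIdeal Λ) (j : ℕ) :
    tl (pullL (inW Λ W) L) (LM φ Y) j ((Λ ⊗[ℤ] W) ⊗[Λ] (Λ ⧸ maximalIdeal Λ)) =
      L.len ((KC (R := W) Y (ys.map φ)).H j) := by
  rw [← hm]
  exact tl_koszul φ Y L hreg j

/-- vanishing in degrees larger than the length of the sequence. -/
theorem tl_max_eq_zero (L : AddLen W) [Module.Flat ℤ W] {ys : List Λ}
    (hreg : IsWeaklyRegular Λ ys) (hm : Ideal.ofList ys = maximalIdeal Λ) (j : ℕ)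
    (hj : ys.length + 1 ≤ j) :
    tl (pullL (inW Λ W) L) (LM φ Y) j ((Λ ⊗[ℤ] W) ⊗[Λ] (Λ ⧸ maximalIdeal Λ)) = 0 := by
  rw [tl_koszul_max φ Y L hreg hm]
  have : Subsingleton ((KC (R := W) Y (ys.map φ)).H j) :=
    KC_H_subsingleton Y (ys.map φ) (by rw [List.length_map]; omega)
  exact len_sub0 L _

theorem chi_koszul (L : AddLen W) [Module.Flat ℤ W] {ys : List Λ}
    (hreg : IsWeaklyRegular Λ ys) (hm : Ideal.ofList ys = maximalIdeal Λ) (n : ℕ) :
    chi (pullL (inW Λ W) L) (LM φ Y) n ((Λ ⊗[ℤ] W) ⊗[Λ] (Λ ⧸ maximalIdeal Λ)) =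
      ∑ j ∈ Finset.range n, (-1 : ℝ) ^ j *
        (L.len ((KC (R := W) Y (ys.map φ)).H j)).toReal := by
  unfold chi
  exact Finset.sum_congr rfl fun j _ => by rw [tl_koszul_max φ Y L hreg hm]

theorem chi_koszul_max (L : AddLen W) [Module.Flat ℤ W] {ys : List Λ}
    (hreg : IsWeaklyRegular Λ ys) (hm : Ideal.ofList ys = maximalIdeal Λ) (m : ℕ) :
    chi (pullL (inW Λ W) L) (LM φ Y) (ys.length + 1 + m)
      ((Λ ⊗[ℤ] W) ⊗[Λ] (Λ ⧸ maximalIdeal Λ)) =
      ∑ j ∈ Finset.range (ys.length + 1), (-1 : ℝ) ^ j *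
        (L.len ((KC (R := W) Y (ys.map φ)).H j)).toReal := by
  rw [chi_koszul φ Y L hreg hm, Finset.sum_range_add, add_eq_left]
  refine Finset.sum_eq_zero fun j _ => ?_
  rw [← tl_koszul_max φ Y L hreg hm, tl_max_eq_zero φ Y L hreg hm _ (by omega)]
  simp

/-- the residue field condition. -/
theorem length_residue_eq_one {R : Type u} [CommRing R] [Algebra Λ R] [IsLocalRing R]
    [IsLocalHom (algebraMap Λ R)]
    (h : ∀ r : R, ∃ a : Λ, r - algebraMap Λ R a ∈ maximalIdeal R) :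
    Module.length (ResidueField Λ) (ResidueField R) = 1 := by
  have hb : Function.Bijective (Algebra.linearMap (ResidueField Λ) (ResidueField R)) := by
    refine ⟨(algebraMap (ResidueField Λ) (ResidueField R)).injective, fun z => ?_⟩
    obtain ⟨r, rfl⟩ := IsLocalRing.residue_surjective z
    obtain ⟨a, ha⟩ := h r
    refine ⟨IsLocalRing.residue Λ a, ?_⟩
    change algebraMap (ResidueField Λ) (ResidueField R) (IsLocalRing.residue Λ a) = _
    have h1 : IsLocalRing.residue R (r - algebraMap Λ R a) = 0 :=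
      Ideal.Quotient.eq_zero_iff_mem.2 ha
    rw [map_sub, sub_eq_zero] at h1
    exact h1.symm
  rw [← (LinearEquiv.ofBijective _ hb).length_eq]
  exact Module.length_eq_one _ _

end Max

section Final

variable {φ} {R : Type u} [CommRing R] [Algebra Λ R] {P : Type u} [AddCommGroup P] [Module R P]
  [Module Λ P] [IsScalarTower Λ R P]

/-- **The multiplicativity formula (B8)**, with Koszul homology: `ys` a regular sequence
generating the maximal ideal of `Λ`, `W` flat over the integers, `P` flat over `Λ`. -/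
theorem b8_koszul [IsLocalRing Λ] [IsLocalRing R] [IsLocalHom (algebraMap Λ R)] [Module.Flat ℤ W]
    [Module.Flat Λ P] (L : AddLen W) (A : Type u) [AddCommGroup A] [Module R A]
    {ys : List Λ} (hreg : IsWeaklyRegular Λ ys) (hm : Ideal.ofList ys = maximalIdeal Λ)
    (hfin : ∀ j, L.len ((KC (R := W) Y (ys.map φ)).H j) ≠ ⊤)
    (d : ℕ) (hd : ∀ i, d ≤ i → Subsingleton (TorM R i A P))
    (hfl : ∀ i, Module.length R (TorM R i A P) ≠ ⊤)
    (h : ∀ r : R, ∃ a : Λ, r - algebraMap Λ R a ∈ maximalIdeal R) :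
    (∀ i, (pullL (inW R W) L).len
      (TorM (R ⊗[ℤ] W) i (TenM φ Y P) ((R ⊗[ℤ] W) ⊗[R] A)) ≠ ⊤) ∧
    ∀ n, d + (ys.length + 1) ≤ n → ∑ i ∈ Finset.range n, (-1 : ℝ) ^ i *
        ((pullL (inW R W) L).len
          (TorM (R ⊗[ℤ] W) i (TenM φ Y P) ((R ⊗[ℤ] W) ⊗[R] A))).toReal =
      (eulerTor R n A P : ℝ) * ∑ j ∈ Finset.range (ys.length + 1), (-1 : ℝ) ^ j *
        (L.len ((KC (R := W) Y (ys.map φ)).H j)).toReal := by
  obtain ⟨h1, h2⟩ := b8_ten (φ := φ) Y P L A (ys.length + 1) (Nat.le_add_left _ _)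
    (fun j => by rw [tl_koszul_max φ Y L hreg hm]; exact hfin j)
    (fun j hj => tl_max_eq_zero φ Y L hreg hm j hj) d hd hfl (length_residue_eq_one h)
  refine ⟨h1, fun n hn => ?_⟩
  rw [h2 n hn, chi_koszul_max φ Y L hreg hm 1]

end Final

end Vale.Agent.P177.B8
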